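import Vale.Agent.P163.H841.Defs

/-!
Definitions for the statement: rotation of the spins in a box only.
-/

open MeasureTheory
open scoped RealInnerProductSpace

namespace Vale.Agent.P163.Restoration

open Vale.Agent.P163.Model Vale.Agent.P163.Universal

variable {n : ℕ}

/-- The configuration in which the spins at the sites at sup-distance at most `r` from `x` are
moved by the isometry `U` and all the other spins are unchanged. -/
noncomputable def rotateInside (x : ℤ × ℤ) (r : ℕ) (U : E n ≃ₗᵢ[ℝ] E n) (σ : ℤ × ℤ → Spin n) :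
    ℤ × ℤ → Spin n :=
  fun y => if supDist y x ≤ r then ⟨U (σ y : E n), by simp⟩ else σ y

/-- `F` does not depend on the spins in the open annulus `r < supDist y x < r + R`. -/
def IgnoresAnnulus (x : ℤ × ℤ) (r R : ℕ) (F : (ℤ × ℤ → Spin n) → ℝ) : Prop :=
  ∀ σ τ : ℤ × ℤ → Spin n, (∀ y, supDist y x ≤ r ∨ (r + R : ℤ) ≤ supDist y x → σ y = τ y) →
    F σ = F τ

/-- The mean value `m` of the functions of the spin configuration is invariant up to `b` under the
rotations of the spins inside the annulus `r < supDist y x < r + R` only: this for all rotations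
and for all continuous functions, bounded by one, that do not depend on the spins in the annulus. -/
def Restores (x : ℤ × ℤ) (r R : ℕ) (m : ((ℤ × ℤ → Spin n) → ℝ) → ℝ) (b : ℝ) : Prop :=
  ∀ F : (ℤ × ℤ → Spin n) → ℝ, Continuous F → IgnoresAnnulus x r R F → (∀ σ, |F σ| ≤ 1) →
    ∀ U : E n ≃ₗᵢ[ℝ] E n, LinearMap.det (U.toLinearEquiv : E n →ₗ[ℝ] E n) = 1 →
      |m (fun σ => F (rotateInside x r U σ)) - m F| ≤ b

/-- Infinite-volume states of the problem, and all Gibbs (DLR) states. -/
def IsState (n : ℕ) (β : ℝ) (μ : Measure (ℤ × ℤ → Spin n)) : Prop :=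
  IsInfiniteVolumeState n β μ ∨ IsGibbs n β μ

/-- Nearly exponential decay. -/
noncomputable def nearExp (c ε t : ℝ) : ℝ := Real.exp (-c * t / Real.log (t + 3) ^ ε)

end Vale.Agent.P163.Restoration
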