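import Vale.Agent.P163.H354.Inf

/-!
The clauses of the theorem.
-/

open MeasureTheory Filter Topology
open scoped RealInnerProductSpace

set_option linter.unusedSectionVars false

namespace Vale.Agent.P163.H354

open Vale.Agent.P163 Vale.Agent.P163.MW Vale.Agent.P163.H841 Vale.Agent.P163.Universal
open Vale.Agent.P163.Restoration

variable {n : ℕ}

/-- the rate -/
noncomputable def rate (C c ε : ℝ) (r R : ℕ) : ℝ :=
  C * (r + 1) * Real.exp (-c * R / Real.log (R + 3) ^ ε)

lemma RM_of_gibbs [NeZero n] {β : ℝ} {B : ℕ → ℕ → ℝ} (h : RB n β B)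
    {μ : Measure (Z2 → Spin n)} (hμ : Model.IsInfiniteVolumeState n β μ ∨ IsGibbs n β μ) :
    IsProbabilityMeasure μ ∧ RM n μ B := by
  have hμ' : IsGibbs n β μ := by
    rcases hμ with hμ | hμ
    · exact gibbs_of_state hμ
    · exact hμ
  exact ⟨hμ'.1, fun x r R F hFc hF hF1 U hU => gibbs_form h hFc hF hF1 hU hμ'⟩

lemma rate_tendsto {C c ε : ℝ} (hc : 0 < c) :
    Tendsto (fun R => rate C c ε 0 R) atTop (𝓝 0) := by
  have h1 : Tendsto (fun R : ℝ => Real.log R ^ ε / R ^ (1 : ℝ)) atTop (𝓝 0) :=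
    (isLittleO_log_rpow_rpow_atTop ε one_pos).tendsto_div_nhds_zero
  have h2 : Tendsto (fun R : ℕ => (R : ℝ) + 3) atTop atTop :=
    tendsto_atTop_add_const_right _ _ tendsto_natCast_atTop_atTop
  have h3 := h1.comp h2
  have h4 : Tendsto (fun R : ℕ => c * R / Real.log (R + 3) ^ ε) atTop atTop := by
    have h5 : Tendsto (fun R : ℕ => (Real.log ((R : ℝ) + 3) ^ ε / ((R : ℝ) + 3)) ) atTop (𝓝[>] 0) := by
      rw [tendsto_nhdsWithin_iff]
      refine ⟨?_, ?_⟩
      · refine h3.congr fun R => ?_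
        simp only [Function.comp_apply, Real.rpow_one]
      · refine Filter.Eventually.of_forall fun R => ?_
        have hR : (0 : ℝ) ≤ R := Nat.cast_nonneg R
        have : 0 < Real.log ((R : ℝ) + 3) := Real.log_pos (by linarith)
        exact div_pos (Real.rpow_pos_of_pos this _) (by linarith)
    have h6 := h5.inv_tendsto_nhdsGT_zero
    refine tendsto_atTop_mono' atTop ?_ (h6.const_mul_atTop (by positivity : 0 < c / 4))
    filter_upwards [eventually_ge_atTop 1] with R hR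
    have hR1 : (1 : ℝ) ≤ R := by exact_mod_cast hR
    have hl : 0 < Real.log ((R : ℝ) + 3) ^ ε :=
      Real.rpow_pos_of_pos (Real.log_pos (by linarith)) _
    simp only [Pi.inv_apply, inv_div]
    rw [mul_div_assoc', div_le_div_iff_of_pos_right hl]
    nlinarith
  have h7 : Tendsto (fun R : ℕ => Real.exp (-(c * R / Real.log (R + 3) ^ ε))) atTop (𝓝 0) :=
    Real.tendsto_exp_neg_atTop_nhds_zero.comp h4
  have h8 := h7.const_mul C
  rw [mul_zero] at h8
  refine h8.congr fun R => ?_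
  unfold rate
  rw [Nat.cast_zero, zero_add, mul_one, neg_mul, neg_div]

lemma rate_half {C c ε : ℝ} (hC : 2 ≤ C) (hc : 0 < c) (r R : ℕ) :
    rate C c ε r R ≤ rate C (c / 2) ε r R := by
  unfold rate
  refine mul_le_mul_of_nonneg_left ?_ (by positivity)
  rw [Real.exp_le_exp]
  have hR0 : (0 : ℝ) ≤ R := Nat.cast_nonneg R
  have hl : 0 ≤ Real.log ((R : ℝ) + 3) ^ ε :=
    Real.rpow_nonneg (Real.log_nonneg (by linarith)) _
  have h1 : 0 ≤ c * R / Real.log ((R : ℝ) + 3) ^ ε := by positivity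
  have e1 : -c * R / Real.log ((R : ℝ) + 3) ^ ε = -(c * R / Real.log ((R : ℝ) + 3) ^ ε) := by
    ring
  have e2 : -(c / 2) * R / Real.log ((R : ℝ) + 3) ^ ε =
      -(c * R / Real.log ((R : ℝ) + 3) ^ ε) / 2 := by ring
  rw [e1, e2]
  linarith

lemma rate_dist {C c ε : ℝ} (hC : 2 ≤ C) (hc : 0 < c) (hε : 0 < ε) {x y : Z2} {r : ℕ}
    (hr : supDist y x = r) :
    rate C c ε 0 r ≤
      C * Real.exp (-(c / 2) * Model.dist2 x y / Real.log (Model.dist2 x y + 3) ^ ε) := by
  unfold rate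
  rw [Nat.cast_zero, zero_add, mul_one]
  refine mul_le_mul_of_nonneg_left ?_ (by linarith)
  rw [Real.exp_le_exp]
  have hrr : (supDist y x : ℝ) = r := by rw [hr]; simp
  have hd1 : Model.dist2 x y ≤ 2 * (r : ℝ) := by
    have h1 := Vale.Agent.P163.dist2_le x y
    have h2 : Vale.Agent.P163.sd x y = supDist y x := by
      unfold Vale.Agent.P163.sd supDist
      rw [abs_sub_comm x.1, abs_sub_comm x.2]
    rw [h2, hrr] at h1
    exact h1
  have hd2 : (r : ℝ) ≤ Model.dist2 x y := by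
    rw [← hrr]
    unfold Model.dist2 supDist
    push_cast
    refine max_le ?_ ?_
    · rw [abs_sub_comm]
      exact Real.abs_le_sqrt (by nlinarith [sq_nonneg ((x.2 : ℝ) - y.2)])
    · rw [abs_sub_comm]
      exact Real.abs_le_sqrt (by nlinarith [sq_nonneg ((x.1 : ℝ) - y.1)])
  have hr0 : (0 : ℝ) ≤ r := by positivity
  have hl0 : 0 < Real.log ((r : ℝ) + 3) := Real.log_pos (by linarith)
  have hl1 : Real.log ((r : ℝ) + 3) ≤ Real.log (Model.dist2 x y + 3) :=
    Real.log_le_log (by linarith) (by linarith)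
  have hl2 : Real.log ((r : ℝ) + 3) ^ ε ≤ Real.log (Model.dist2 x y + 3) ^ ε :=
    Real.rpow_le_rpow hl0.le hl1 hε.le
  have hp : 0 < Real.log ((r : ℝ) + 3) ^ ε := Real.rpow_pos_of_pos hl0 _
  have hkey : c / 2 * Model.dist2 x y / Real.log (Model.dist2 x y + 3) ^ ε ≤
      c * r / Real.log ((r : ℝ) + 3) ^ ε := by
    refine div_le_div₀ (by positivity) ?_ hp hl2
    nlinarith only [hd1, hc]
  have e1 : -c * r / Real.log ((r : ℝ) + 3) ^ ε = -(c * r / Real.log ((r : ℝ) + 3) ^ ε) := by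
    ring
  have e2 : -(c / 2) * Model.dist2 x y / Real.log (Model.dist2 x y + 3) ^ ε =
      -(c / 2 * Model.dist2 x y / Real.log (Model.dist2 x y + 3) ^ ε) := by ring
  rw [e1, e2]
  linarith

/-- the law of two spins, with the Euclidean distance -/
theorem pair_dist (hn : 3 ≤ n) {μ : Measure (Z2 → Spin n)} {C c ε : ℝ} (hC : 2 ≤ C)
    (hc : 0 < c) (hε : 0 < ε) (hμ : IsProbabilityMeasure μ ∧ RM n μ (rate C c ε)) (x y : Z2)
    {Φ : Spin n × Spin n → ℝ} (hΦ : Continuous Φ) (hΦ1 : ∀ p, |Φ p| ≤ 1) :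
    |∫ σ, Φ (σ x, σ y) ∂μ - ∫ p, Φ p ∂((Model.unif n).prod (Model.unif n))| ≤
      C * Real.exp (-(c / 2) * Model.dist2 x y / Real.log (Model.dist2 x y + 3) ^ ε) := by
  have : NeZero n := ⟨by omega⟩
  obtain ⟨hp, hRM⟩ := hμ
  rw [model_unif]
  have hs0 : 0 ≤ supDist y x := le_max_of_le_left (abs_nonneg _)
  obtain ⟨R, hR⟩ := Int.eq_ofNat_of_zero_le hs0
  by_cases hR0 : R = 0
  · subst hR0
    have hxy : x = y := by
      have h1 : supDist y x ≤ 0 := by rw [hR]; simp
      rw [supDist_le_iff] at h1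
      exact Prod.ext (by omega) (by omega)
    have h1 : |∫ σ, Φ (σ x, σ y) ∂μ| ≤ 1 := by
      have h3 := norm_integral_le_of_norm_le_const (μ := μ) (C := 1)
        (f := fun σ => Φ (σ x, σ y))
        (Filter.Eventually.of_forall fun s => by rw [Real.norm_eq_abs]; exact hΦ1 _)
      rw [Real.norm_eq_abs] at h3
      simpa using h3
    have h2 : |∫ p, Φ p ∂((unif n).prod (unif n))| ≤ 1 := by
      have h3 := norm_integral_le_of_norm_le_const (μ := (unif n).prod (unif n)) (C := 1)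
        (f := Φ) (Filter.Eventually.of_forall fun s => by rw [Real.norm_eq_abs]; exact hΦ1 _)
      rw [Real.norm_eq_abs] at h3
      simpa using h3
    have h4 : Model.dist2 x y = 0 := by
      subst hxy
      unfold Model.dist2
      simp
    rw [h4, mul_zero, zero_div, Real.exp_zero, mul_one]
    refine (abs_sub _ _).trans ?_
    linarith
  · exact (pair_law hn hRM (rate_tendsto hc) (Nat.pos_of_ne_zero hR0) hR hΦ hΦ1).trans
      (rate_dist hC hc hε hR)

end Vale.Agent.P163.H354
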