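import Vale.Agent.P163.H354.Reg

/-!
Finite regions with boundary conditions and Gibbs states.
-/

open MeasureTheory Filter Topology
open scoped RealInnerProductSpace

set_option linter.unusedSectionVars false

namespace Vale.Agent.P163.H354

open Vale.Agent.P163 Vale.Agent.P163.MW Vale.Agent.P163.H841 Vale.Agent.P163.Universal
open Vale.Agent.P163.Restoration

variable {n : ℕ}

/-- the property proved in `restore` -/
def RB (n : ℕ) (β : ℝ) (B : ℕ → ℕ → ℝ) : Prop :=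
  ∀ (x : Z2) (r R : ℕ) (F : (Z2 → Spin n) → ℝ), Continuous F →
      IgnoresAnnulus x r R F → (∀ σ, |F σ| ≤ 1) → ∀ U : E n ≃ₗᵢ[ℝ] E n, dt U = 1 →
      ∀ (Λ : Finset Z2) (η : Z2 → Spin n), (∀ y, supDist y x < r + R → y ∈ Λ) →
      |Gb Λ (HL β Λ) (fun τ => F (rotateInside x r U τ)) η - Gb Λ (HL β Λ) F η| ≤ B r R

variable [NeZero n]

/-- finite regions -/
theorem region_form {β : ℝ} {B : ℕ → ℕ → ℝ} (h : RB n β B) {x : Z2} {r R : ℕ}
    {F : (Z2 → Spin n) → ℝ} (hFc : Continuous F) (hF : IgnoresAnnulus x r R F)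
    (hF1 : ∀ σ, |F σ| ≤ 1) {U : E n ≃ₗᵢ[ℝ] E n} (hU : dt U = 1) {Λ : Finset Z2}
    (hΛ : ∀ y, supDist y x < r + R → y ∈ Λ) (η : Z2 → Spin n) :
    |∫ s, F (rotateInside x r U (glue Λ s η)) ∂(bcState n β Λ η) -
      ∫ s, F (glue Λ s η) ∂(bcState n β Λ η)| ≤ B r R := by
  have h1 := h x r R F hFc hF hF1 U hU Λ η hΛ
  rw [← integral_bcState β Λ hFc η,
    ← integral_bcState β Λ (F := fun τ => F (rotateInside x r U τ))
      (hFc.comp (continuous_rot x r U)) η] at h1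
  exact h1

/-- Gibbs states -/
theorem gibbs_form {β : ℝ} {B : ℕ → ℕ → ℝ} (h : RB n β B) {x : Z2} {r R : ℕ}
    {F : (Z2 → Spin n) → ℝ} (hFc : Continuous F) (hF : IgnoresAnnulus x r R F)
    (hF1 : ∀ σ, |F σ| ≤ 1) {U : E n ≃ₗᵢ[ℝ] E n} (hU : dt U = 1)
    {μ : Measure (Z2 → Spin n)} (hμ : IsGibbs n β μ) :
    |∫ σ, F (rotateInside x r U σ) ∂μ - ∫ σ, F σ ∂μ| ≤ B r R := by
  obtain ⟨hprob, hdlr⟩ := hμ
  set Q : ℤ := r + R with hQ
  set Λ : Finset Z2 := inn (x.1 - Q, x.2 - Q) (2 * Q) with hΛdef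
  have hΛ : ∀ z, supDist z x < r + R → z ∈ Λ := by
    intro z hz
    rw [hΛdef, mem_inn]
    simp only
    unfold supDist at hz
    rw [max_lt_iff, abs_lt, abs_lt] at hz
    omega
  have hGc : Continuous fun τ => F (rotateInside x r U τ) := hFc.comp (continuous_rot x r U)
  have hH := continuous_HL (n := n) β Λ
  have e1 : (fun σ : Z2 → Spin n => ∫ s, F (rotateInside x r U (glue Λ s σ)) ∂(bcState n β Λ σ)) =
      Gb Λ (HL β Λ) (fun τ => F (rotateInside x r U τ)) := by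
    funext σ
    exact integral_bcState β Λ (F := fun τ => F (rotateInside x r U τ)) hGc σ
  have e2 : (fun σ : Z2 → Spin n => ∫ s, F (glue Λ s σ) ∂(bcState n β Λ σ)) =
      Gb Λ (HL β Λ) F := by
    funext σ
    exact integral_bcState β Λ hFc σ
  rw [hdlr Λ _ hGc, hdlr Λ _ hFc, e1, e2]
  have i1 : Integrable (Gb Λ (HL β Λ) (fun τ => F (rotateInside x r U τ))) μ := by
    refine Integrable.of_bound (continuous_Gb hH hGc).aestronglyMeasurable 1
      (Filter.Eventually.of_forall fun σ => ?_)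
    rw [Real.norm_eq_abs]
    exact Gb_abs_le hH hGc (fun τ => hF1 _) σ
  have i2 : Integrable (Gb Λ (HL β Λ) F) μ := by
    refine Integrable.of_bound (continuous_Gb hH hFc).aestronglyMeasurable 1
      (Filter.Eventually.of_forall fun σ => ?_)
    rw [Real.norm_eq_abs]
    exact Gb_abs_le hH hFc (fun τ => hF1 _) σ
  rw [← integral_sub i1 i2]
  have h2 := norm_integral_le_of_norm_le_const (μ := μ) (C := B r R)
    (f := fun σ => Gb Λ (HL β Λ) (fun τ => F (rotateInside x r U τ)) σ - Gb Λ (HL β Λ) F σ)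
    (Filter.Eventually.of_forall fun σ => by
      rw [Real.norm_eq_abs]; exact h x r R F hFc hF hF1 U hU Λ σ hΛ)
  rw [Real.norm_eq_abs] at h2
  simpa using h2

end Vale.Agent.P163.H354
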