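import Mathlib.MeasureTheory.Measure.Haar.Basic
import Mathlib.MeasureTheory.Integral.Prod
import Mathlib.MeasureTheory.Group.Integral
import Mathlib.Analysis.InnerProductSpace.Adjoint
import Mathlib.Analysis.InnerProductSpace.PiL2
import Mathlib.Topology.Algebra.Star.Unitary
import Mathlib.Analysis.Normed.Module.FiniteDimension
import Mathlib.Analysis.CStarAlgebra.Basic

/-!
The invariant probability measure of the rotation group.
-/

open MeasureTheory Filter Topology

set_option linter.unusedSectionVars false

namespace Vale.Agent.P163.H354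

variable {H : Type} [NormedAddCommGroup H] [InnerProductSpace ℝ H] [FiniteDimensional ℝ H]

/-- the orthogonal group, as a topological group -/
noncomputable abbrev OG (H : Type) [NormedAddCommGroup H] [InnerProductSpace ℝ H]
    [FiniteDimensional ℝ H] := unitary (H →L[ℝ] H)

/-- the isometry of an element of the group -/
noncomputable abbrev li (u : OG H) : H ≃ₗᵢ[ℝ] H := Unitary.linearIsometryEquiv u

/-- determinant -/
noncomputable def dtH (U : H ≃ₗᵢ[ℝ] H) : ℝ := LinearMap.det (U.toLinearEquiv : H →ₗ[ℝ] H)

lemma dtH_mul (U V : H ≃ₗᵢ[ℝ] H) : dtH (U * V) = dtH U * dtH V := by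
  unfold dtH
  rw [← LinearMap.det_comp]
  rfl

lemma dtH_one : dtH (1 : H ≃ₗᵢ[ℝ] H) = 1 := by
  unfold dtH
  exact LinearMap.det_id

lemma li_mul (u v : OG H) : li (u * v) = li u * li v := map_mul _ u v

lemma li_apply (u : OG H) (x : H) : li u x = (u : H →L[ℝ] H) x := rfl

/-- the rotation group -/
noncomputable def SG (H : Type) [NormedAddCommGroup H] [InnerProductSpace ℝ H]
    [FiniteDimensional ℝ H] : Subgroup (OG H) where
  carrier := {u | dtH (li u) = 1}
  mul_mem' {a b} ha hb := by
    simp only [Set.mem_ofPred_eq] at ha hb ⊢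
    rw [li_mul, dtH_mul, ha, hb, one_mul]
  one_mem' := by
    simp only [Set.mem_ofPred_eq]
    have : li (1 : OG H) = 1 := map_one _
    rw [this, dtH_one]
  inv_mem' {a} ha := by
    simp only [Set.mem_ofPred_eq] at ha ⊢
    have h1 : dtH (li (a⁻¹ * a)) = 1 := by
      rw [inv_mul_cancel]
      have : li (1 : OG H) = 1 := map_one _
      rw [this, dtH_one]
    rw [li_mul, dtH_mul, ha, mul_one] at h1
    exact h1

lemma isClosed_SG : IsClosed ((SG H : Subgroup (OG H)) : Set (OG H)) := by
  have : ((SG H : Subgroup (OG H)) : Set (OG H)) =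
      (fun u : OG H => (u : H →L[ℝ] H).det) ⁻¹' {1} := rfl
  rw [this]
  exact isClosed_singleton.preimage
    (ContinuousLinearMap.continuous_det.comp continuous_subtype_val)

instance : CompactSpace (OG H) := by
  have : ProperSpace (H →L[ℝ] H) := FiniteDimensional.proper ℝ _
  refine isCompact_iff_compactSpace.1 ?_
  refine Metric.isCompact_of_isClosed_isBounded isClosed_unitary ?_
  refine Metric.isBounded_closedBall (x := (0 : H →L[ℝ] H)) (r := 1) |>.subset ?_
  intro u hu
  rw [mem_closedBall_zero_iff]
  refine ContinuousLinearMap.opNorm_le_bound _ zero_le_one fun x => ?_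
  rw [one_mul]
  exact (Unitary.norm_map (⟨u, hu⟩ : OG H) x).le

instance : CompactSpace (SG H) := isCompact_iff_compactSpace.1 isClosed_SG.isCompact

instance : SecondCountableTopology (SG H) := by
  have : ProperSpace (H →L[ℝ] H) := FiniteDimensional.proper ℝ _
  infer_instance

noncomputable instance : MeasurableSpace (SG H) := borel _

instance : BorelSpace (SG H) := ⟨rfl⟩

/-- invariant probability measure on the rotations -/
theorem exists_haar (H : Type) [NormedAddCommGroup H] [InnerProductSpace ℝ H]
    [FiniteDimensional ℝ H] : ∃ (G : Type) (_ : TopologicalSpace G)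
    (_ : SecondCountableTopology G) (_ : MeasurableSpace G) (_ : BorelSpace G) (m : Measure G)
    (U : G → H ≃ₗᵢ[ℝ] H), IsProbabilityMeasure m ∧ (∀ g, dtH (U g) = 1) ∧
    Continuous (fun p : G × H => U p.1 p.2) ∧ ∀ V : H ≃ₗᵢ[ℝ] H, dtH V = 1 → ∀ f : H → ℝ,
      ∀ x, ∫ g, f (U g (V x)) ∂m = ∫ g, f (U g x) ∂m := by
  refine ⟨SG H, inferInstance, inferInstance, inferInstance, inferInstance,
    Measure.haarMeasure (⊤ : TopologicalSpace.PositiveCompacts (SG H)),
    fun g => li ((g⁻¹ : SG H) : OG H), ⟨?_⟩, fun g => (g⁻¹ : SG H).2, ?_, ?_⟩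
  · have h := Measure.haarMeasure_self (K₀ := (⊤ : TopologicalSpace.PositiveCompacts (SG H)))
    exact h
  · have h1 : Continuous fun p : SG H × H => (((p.1⁻¹ : SG H) : OG H) : H →L[ℝ] H) :=
      continuous_subtype_val.comp (continuous_subtype_val.comp (continuous_inv.comp continuous_fst))
    exact h1.clm_apply continuous_snd
  · intro V hV f x
    have hmem : Unitary.linearIsometryEquiv.symm V ∈ SG H := by
      show dtH (Unitary.linearIsometryEquiv (Unitary.linearIsometryEquiv.symm V)) = 1
      rw [MulEquiv.apply_symm_apply, hV]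
    set v : SG H := ⟨Unitary.linearIsometryEquiv.symm V, hmem⟩ with hv
    have hlv : li (v : OG H) = V := MulEquiv.apply_symm_apply _ V
    have h1 := integral_mul_left_eq_self (μ := Measure.haarMeasure
      (⊤ : TopologicalSpace.PositiveCompacts (SG H)))
      (fun g : SG H => f (li ((g⁻¹ : SG H) : OG H) x)) v⁻¹
    rw [← h1]
    refine integral_congr_ae (Filter.Eventually.of_forall fun g => ?_)
    beta_reduce
    congr 1
    have h2 : (v⁻¹ * g)⁻¹ = g⁻¹ * v := by group
    rw [h2]
    have h3 : ((g⁻¹ * v : SG H) : OG H) = ((g⁻¹ : SG H) : OG H) * (v : OG H) := rfl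
    rw [h3, li_mul, hlv]
    rfl

end Vale.Agent.P163.H354
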