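import Vale.Agent.P163.H354.Gibbs
import Vale.Agent.P163.H354.HaarG

/-!
The law of the relative angle of two spins.
-/

open MeasureTheory Filter Topology
open scoped RealInnerProductSpace

set_option linter.unusedSectionVars false

namespace Vale.Agent.P163.H354

open Vale.Agent.P163 Vale.Agent.P163.MW Vale.Agent.P163.H841 Vale.Agent.P163.Universal
open Vale.Agent.P163.Restoration

variable {n : ℕ}

/-- rotations act transitively on the sphere -/
lemma exists_rot (hn : 3 ≤ n) (s t : Spin n) : ∃ U : E n ≃ₗᵢ[ℝ] E n, dt U = 1 ∧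
    U (s : E n) = (t : E n) := by
  obtain ⟨a, ha⟩ : ∃ a : E n, a = s := ⟨_, rfl⟩
  obtain ⟨b, hb⟩ : ∃ b : E n, b = t := ⟨_, rfl⟩
  have ha1 : ‖a‖ = 1 := by rw [ha]; exact mw_spin_norm s
  have hb1 : ‖b‖ = 1 := by rw [hb]; exact mw_spin_norm t
  rw [← ha, ← hb]
  by_cases hst : a = b
  · exact ⟨1, dt_one, by rw [← hst]; rfl⟩
  · obtain ⟨T, hT⟩ := Vale.Agent.P163.MW.exists_tri hn ha1
    have hb0 : T.b ≠ 0 := by
      intro h
      have := T.hb
      rw [h, norm_zero] at this
      exact zero_ne_one this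
    have hst0 : a - b ≠ 0 := sub_ne_zero.2 hst
    refine ⟨rf (a - b) * rf T.b, ?_, ?_⟩
    · rw [dt_mul, dt_rf hst0, dt_rf hb0]; norm_num
    · have h0 : (rf (a - b) * rf T.b) a = rf (a - b) (rf T.b a) := rfl
      have h1 : rf T.b a = a := by
        rw [rf_apply T.hb]
        have : ⟪T.b, a⟫ = 0 := by
          rw [← hT, real_inner_comm]; exact T.hab
        rw [this, mul_zero, zero_smul, sub_zero]
      rw [h0, h1]
      exact Submodule.reflection_sub (by rw [ha1, hb1])

lemma integral_isoSphere {ψ : Spin n → ℝ} (hψ : Continuous ψ) (U : E n ≃ₗᵢ[ℝ] E n) :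
    ∫ s, ψ (isoSphere U s) ∂(unif n) = ∫ s, ψ s ∂(unif n) := by
  have h3 := integral_map (μ := unif n) (measurable_isoSphere U).aemeasurable
      (f := ψ) hψ.aestronglyMeasurable
  rw [unif_map_iso] at h3
  exact h3.symm

variable [NeZero n]

/-- averages over rotations are averages over the sphere -/
theorem haar_avg (hn : 3 ≤ n) {G : Type} [TopologicalSpace G]
    [SecondCountableTopology G] [MeasurableSpace G] [BorelSpace G] {m : Measure G}
    [IsProbabilityMeasure m] {U : G → E n ≃ₗᵢ[ℝ] E n}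
    (hUc : Continuous (fun p : G × E n => U p.1 p.2))
    (hinv : ∀ V : E n ≃ₗᵢ[ℝ] E n, dtH V = 1 → ∀ f : E n → ℝ,
      ∀ x, ∫ g, f (U g (V x)) ∂m = ∫ g, f (U g x) ∂m)
    {ψ : Spin n → ℝ} (hψ : Continuous ψ) {C : ℝ} (hC : ∀ s, |ψ s| ≤ C) (s : Spin n) :
    ∫ g, ψ (isoSphere (U g) s) ∂m = ∫ s, ψ s ∂(unif n) := by
  classical
  set f : E n → ℝ := fun x => if h : x ∈ Metric.sphere (0 : E n) 1 then ψ ⟨x, h⟩ else 0 with hf
  have hfs : ∀ (V : E n ≃ₗᵢ[ℝ] E n) (t : Spin n), f (V t) = ψ (isoSphere V t) := by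
    intro V t
    rw [hf]
    beta_reduce
    have hm : V (t : E n) ∈ Metric.sphere (0 : E n) 1 := (isoSphere V t).2
    rw [dif_pos hm]
    rfl
  set A : Spin n → ℝ := fun t => ∫ g, ψ (isoSphere (U g) t) ∂m with hA
  have hAf : ∀ t, A t = ∫ g, f (U g (t : E n)) ∂m := by
    intro t
    rw [hA]
    simp only [hfs]
  have hconst : ∀ t, A t = A s := by
    intro t
    obtain ⟨V, hV, hVs⟩ := exists_rot hn s t
    rw [hAf, hAf, ← hVs]
    exact hinv V hV f s
  have hcont : Continuous (Function.uncurry fun (t : Spin n) (g : G) =>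
      ψ (isoSphere (U g) t)) := by
    refine hψ.comp ?_
    refine Continuous.subtype_mk ?_ _
    exact hUc.comp (continuous_snd.prodMk (continuous_subtype_val.comp continuous_fst))
  have hint : Integrable (Function.uncurry fun (t : Spin n) (g : G) =>
      ψ (isoSphere (U g) t)) ((unif n).prod m) := by
    refine Integrable.of_bound hcont.aestronglyMeasurable C
      (Filter.Eventually.of_forall fun p => ?_)
    rw [Real.norm_eq_abs]
    exact hC _
  have h1 : ∫ t, A t ∂(unif n) = A s := by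
    simp only [hconst]
    simp
  have h2 : ∫ t, A t ∂(unif n) = ∫ s, ψ s ∂(unif n) := by
    rw [hA, integral_integral_swap hint]
    simp only [integral_isoSphere hψ]
    simp
  rw [← h2, h1]

/-- one spin: averaging a bound over the rotations -/
theorem avg_bound (hn : 3 ≤ n) {μ : Measure (Z2 → Spin n)} [IsProbabilityMeasure μ] (x : Z2)
    {Φ : Spin n × (Z2 → Spin n) → ℝ} (hΦ : Continuous Φ) (hΦ1 : ∀ p, |Φ p| ≤ 1) {a b : ℝ}
    (hb : ∀ U : E n ≃ₗᵢ[ℝ] E n, dt U = 1 → |∫ σ, Φ (isoSphere U (σ x), σ) ∂μ - a| ≤ b) :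
    |∫ σ, ∫ s, Φ (s, σ) ∂(unif n) ∂μ - a| ≤ b := by
  obtain ⟨G, tG, scG, mG, bG, m, U, hm, hU, hUc, hinv⟩ := exists_haar (E n)
  have hcont : Continuous (Function.uncurry fun (σ : Z2 → Spin n) (g : G) =>
      Φ (isoSphere (U g) (σ x), σ)) := by
    refine hΦ.comp (Continuous.prodMk ?_ continuous_fst)
    refine Continuous.subtype_mk ?_ _
    exact hUc.comp (continuous_snd.prodMk
      (continuous_subtype_val.comp ((continuous_apply x).comp continuous_fst)))
  have hint : Integrable (Function.uncurry fun (σ : Z2 → Spin n) (g : G) =>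
      Φ (isoSphere (U g) (σ x), σ)) (μ.prod m) := by
    refine Integrable.of_bound hcont.aestronglyMeasurable 1
      (Filter.Eventually.of_forall fun p => ?_)
    rw [Real.norm_eq_abs]
    exact hΦ1 _
  have h1 : ∫ σ, ∫ s, Φ (s, σ) ∂(unif n) ∂μ =
      ∫ g, ∫ σ, Φ (isoSphere (U g) (σ x), σ) ∂μ ∂m := by
    rw [← integral_integral_swap hint]
    refine integral_congr_ae (Filter.Eventually.of_forall fun σ => ?_)
    beta_reduce
    have hψ : Continuous fun s : Spin n => Φ (s, σ) := hΦ.comp (by fun_prop)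
    exact (haar_avg hn hUc hinv hψ (C := 1) (fun s => hΦ1 _) (σ x)).symm
  have i1 : Integrable (fun g => ∫ σ, Φ (isoSphere (U g) (σ x), σ) ∂μ) m :=
    hint.swap.integral_prod_left
  have h2 : ∫ g, ∫ σ, Φ (isoSphere (U g) (σ x), σ) ∂μ ∂m - a =
      ∫ g, (∫ σ, Φ (isoSphere (U g) (σ x), σ) ∂μ - a) ∂m := by
    rw [integral_sub i1 (integrable_const a)]
    simp
  rw [h1, h2]
  have h3 := norm_integral_le_of_norm_le_const (μ := m) (C := b)
    (f := fun g => ∫ σ, Φ (isoSphere (U g) (σ x), σ) ∂μ - a)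
    (Filter.Eventually.of_forall fun g => by rw [Real.norm_eq_abs]; exact hb (U g) (hU g))
  rw [Real.norm_eq_abs] at h3
  simpa using h3

/-- the bound for the states on the whole lattice -/
def RM (n : ℕ) (μ : Measure (Z2 → Spin n)) (B : ℕ → ℕ → ℝ) : Prop :=
  ∀ (x : Z2) (r R : ℕ) (F : (Z2 → Spin n) → ℝ), Continuous F →
      IgnoresAnnulus x r R F → (∀ σ, |F σ| ≤ 1) → ∀ U : E n ≃ₗᵢ[ℝ] E n, dt U = 1 →
      |∫ σ, F (rotateInside x r U σ) ∂μ - ∫ σ, F σ ∂μ| ≤ B r R

lemma supDist_self (x : Z2) : supDist x x = 0 := by unfold supDist; simp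

lemma rot_self (x : Z2) (U : E n ≃ₗᵢ[ℝ] E n) (σ : Z2 → Spin n) :
    rotateInside x 0 U σ x = isoSphere U (σ x) := by
  unfold rotateInside
  rw [if_pos (by rw [supDist_self]; simp)]
  rfl

lemma rot_far {x y : Z2} (h : 0 < supDist y x) (U : E n ≃ₗᵢ[ℝ] E n) (σ : Z2 → Spin n) :
    rotateInside x 0 U σ y = σ y := by
  unfold rotateInside
  rw [if_neg (by push_cast; omega)]

/-- the law of one spin -/
theorem one_law (hn : 3 ≤ n) {μ : Measure (Z2 → Spin n)} [IsProbabilityMeasure μ]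
    {B : ℕ → ℕ → ℝ} (hμ : RM n μ B) (hB : Tendsto (fun R => B 0 R) atTop (𝓝 0)) (y : Z2)
    {g : Spin n → ℝ} (hg : Continuous g) (hg1 : ∀ s, |g s| ≤ 1) :
    ∫ σ, g (σ y) ∂μ = ∫ s, g s ∂(unif n) := by
  have h := avg_bound hn (μ := μ) y (Φ := fun p => g p.1) (hg.comp continuous_fst)
    (fun p => hg1 _) (a := ∫ σ, g (σ y) ∂μ) (b := 0) (fun U hU => ?_)
  · have h1 := abs_nonpos_iff.1 h
    simp only [integral_const, probReal_univ, smul_eq_mul, one_mul] at h1
    linarith
  · refine ge_of_tendsto' hB fun R => ?_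
    have h1 := hμ y 0 R (fun σ => g (σ y)) (hg.comp (continuous_apply y)) ?_ (fun σ => hg1 _) U hU
    · simp only [rot_self] at h1
      exact h1
    · intro σ τ hστ
      beta_reduce
      rw [hστ y (Or.inl (by rw [supDist_self]; simp))]

/-- the law of two spins -/
theorem pair_law (hn : 3 ≤ n) {μ : Measure (Z2 → Spin n)} [IsProbabilityMeasure μ]
    {B : ℕ → ℕ → ℝ} (hμ : RM n μ B) (hB : Tendsto (fun R => B 0 R) atTop (𝓝 0)) {x y : Z2} {R : ℕ}
    (hR : 0 < R) (hxy : supDist y x = R)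
    {Φ : Spin n × Spin n → ℝ} (hΦ : Continuous Φ) (hΦ1 : ∀ p, |Φ p| ≤ 1) :
    |∫ σ, Φ (σ x, σ y) ∂μ - ∫ p, Φ p ∂((unif n).prod (unif n))| ≤ B 0 R := by
  have hpos : 0 < supDist y x := by omega
  have h1 := avg_bound hn (μ := μ) x (Φ := fun p => Φ (p.1, p.2 y)) (hΦ.comp (by fun_prop))
    (fun p => hΦ1 _) (a := ∫ σ, Φ (σ x, σ y) ∂μ) (b := B 0 R) (fun U hU => by
      have h1 := hμ x 0 R (fun σ => Φ (σ x, σ y)) (hΦ.comp (by fun_prop)) (by
        intro σ τ hστ
        beta_reduce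
        rw [hστ x (Or.inl (by rw [supDist_self]; simp)),
          hστ y (Or.inr (by push_cast; omega))]) (fun σ => hΦ1 _) U hU
      simp only [rot_self, rot_far hpos] at h1
      exact h1)
  have hint : Integrable Φ ((unif n).prod (unif n)) := by
    refine Integrable.of_bound hΦ.aestronglyMeasurable 1
      (Filter.Eventually.of_forall fun p => ?_)
    rw [Real.norm_eq_abs]
    exact hΦ1 _
  have hgc : Continuous fun t : Spin n => ∫ s, Φ (s, t) ∂(unif n) := by
    refine continuous_of_dominated (bound := fun _ => 1) (fun t => ?_) (fun t => ?_)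
      (integrable_const _) ?_
    · exact (hΦ.comp (by fun_prop : Continuous fun s : Spin n => (s, t))).aestronglyMeasurable
    · exact Filter.Eventually.of_forall fun s => by rw [Real.norm_eq_abs]; exact hΦ1 _
    · exact Filter.Eventually.of_forall fun s =>
        hΦ.comp (by fun_prop : Continuous fun t : Spin n => (s, t))
  have h2 := one_law hn hμ hB y hgc (fun t => by
    have h3 := norm_integral_le_of_norm_le_const (μ := unif n) (C := 1)
      (f := fun s => Φ (s, t))
      (Filter.Eventually.of_forall fun s => by rw [Real.norm_eq_abs]; exact hΦ1 _)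
    rw [Real.norm_eq_abs] at h3
    simpa using h3)
  have h3 : ∫ p, Φ p ∂((unif n).prod (unif n)) = ∫ t, ∫ s, Φ (s, t) ∂(unif n) ∂(unif n) :=
    integral_prod_symm _ hint
  rw [h3, ← h2, abs_sub_comm]
  exact h1

end Vale.Agent.P163.H354
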