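import Vale.Agent.P163.H354.Haar

/-!
Infinite-volume states are Gibbs states.
-/

open MeasureTheory Filter Topology
open scoped RealInnerProductSpace Uniformity

set_option linter.unusedSectionVars false

namespace Vale.Agent.P163.H354

open Vale.Agent.P163 Vale.Agent.P163.MW Vale.Agent.P163.H841 Vale.Agent.P163.Universal

variable {n : ℕ}

open Classical in
/-- the couplings in a box -/
noncomputable def Jbox (β : ℝ) (p : Bool) (a b : Z2) : Finset.Icc a b → Finset.Icc a b → ℝ :=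
  fun x y => if (p = true ∧ PerAdj a b x y) ∨ (p = false ∧ Adj x y) then β else 0

/-- the energy in a box -/
noncomputable def HB (β : ℝ) (p : Bool) (a b : Z2) (η : Z2 → Spin n) : ℝ :=
  Hh (Jbox β p a b) (fun u => (η u.1 : E n))

lemma continuous_HB (β : ℝ) (p : Bool) (a b : Z2) : Continuous (HB (n := n) β p a b) := by
  unfold HB
  exact (continuous_Hh _).comp (continuous_pi fun u =>
    continuous_subtype_val.comp (continuous_apply _))

lemma glue_mem {Λ : Finset Z2} {s : Λ → Spin n} {η : Z2 → Spin n} {x : Z2} (h : x ∈ Λ) :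
    glue Λ s η x = s ⟨x, h⟩ := by
  unfold glue; rw [dif_pos h]

lemma integral_boxState [NeZero n] (β : ℝ) (p : Bool) (a b : Z2) {F : (Z2 → Spin n) → ℝ}
    (hF : Continuous F) (η : Z2 → Spin n) :
    ∫ s, F (glue (Finset.Icc a b) s η) ∂(Model.boxState n β p a b) =
      Gb (Finset.Icc a b) (HB β p a b) F η := by
  have hH := continuous_HB (n := n) β p a b
  unfold Model.boxState Model.gibbs Gb
  rw [integral_tilted, Av_eq_glue _ (cfe hF hH), Av_eq_glue _ (cexp hH), ← integral_div]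
  have key : ∀ s : Finset.Icc a b → Spin n, HB β p a b (glue (Finset.Icc a b) s η) =
      Hh (Jbox β p a b) (fun u => (s u : E n)) := by
    intro s
    unfold HB
    congr 1
    funext u
    rw [glue_mem u.2]
  congr 1
  funext s
  rw [smul_eq_mul]
  simp only [key]
  unfold Hh Jbox
  rw [mul_comm (F _), div_mul_eq_mul_div]
  rfl

lemma supDist_le_iff {x y : Z2} {r : ℤ} : supDist x y ≤ r ↔
    (y.1 - r ≤ x.1 ∧ x.1 ≤ y.1 + r) ∧ (y.2 - r ≤ x.2 ∧ x.2 ≤ y.2 + r) := by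
  unfold supDist
  rw [max_le_iff, abs_le, abs_le]
  omega

lemma mem_box_iff {a b x : Z2} : x ∈ Finset.Icc a b ↔
    (a.1 ≤ x.1 ∧ a.2 ≤ x.2) ∧ (x.1 ≤ b.1 ∧ x.2 ≤ b.2) := by
  rw [Finset.mem_Icc, Prod.le_def, Prod.le_def]

lemma noDep_HB_HL [NeZero n] (β : ℝ) (p : Bool) {a b : Z2} {Λ : Finset Z2}
    (hΛ : ∀ y ∈ Λ, ∀ q, supDist q y ≤ 1 → q ∈ Finset.Icc a b) :
    NoDep Λ (fun σ : Z2 → Spin n => HB β p a b σ - HL β Λ σ) := by
  refine noDep_of_sites _ fun y hy => ?_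
  have hy1 := hΛ y hy
  have hab : a.1 + 1 ≤ b.1 ∧ a.2 + 1 ≤ b.2 := by
    have h1 := hy1 (y.1 - 1, y.2 - 1) (by rw [supDist_le_iff]; simp only; omega)
    have h2 := hy1 (y.1 + 1, y.2 + 1) (by rw [supDist_le_iff]; simp only; omega)
    rw [mem_box_iff] at h1 h2
    simp only at h1 h2
    omega
  have hs : ∀ u v, Jbox β p a b u v = Jbox β p a b v u := by
    intro u v
    have h1 : PerAdj a b u v ↔ PerAdj a b v u := ⟨perAdj_symm, perAdj_symm⟩
    have h2 : Adj u v ↔ Adj v u := ⟨adj_symm, adj_symm⟩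
    have h3 : ((p = true ∧ PerAdj a b u v) ∨ (p = false ∧ Adj u v)) ↔
        ((p = true ∧ PerAdj a b v u) ∨ (p = false ∧ Adj v u)) := by rw [h1, h2]
    unfold Jbox
    by_cases h4 : (p = true ∧ PerAdj a b u v) ∨ (p = false ∧ Adj u v)
    · rw [if_pos h4, if_pos (h3.1 h4)]
    · rw [if_neg h4, if_neg (fun h => h4 (h3.2 h))]
  have h0 : ∀ v, Jbox β p a b v v = 0 := by
    intro v
    simp only [Jbox]
    rw [if_neg]
    rintro (⟨-, h⟩ | ⟨-, h⟩)
    · exact not_perAdj_self hab.1 hab.2 h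
    · simp only [Adj, sub_self, abs_zero, add_zero, zero_ne_one] at h
  have hinn : ∀ q, q ∈ inn (y.1 - 1, y.2 - 1) 2 → q = y := by
    intro q hq
    rw [mem_inn] at hq
    simp only at hq
    exact Prod.ext (by omega) (by omega)
  have hyi : y ∈ inn (y.1 - 1, y.2 - 1) 2 := by
    rw [mem_inn]; simp only; omega
  have hcov : ∀ q ∈ clo (y.1 - 1, y.2 - 1) 2, ∃ v : Finset.Icc a b, v.1 = q := by
    intro q hq
    rw [mem_clo] at hq
    simp only at hq
    exact ⟨⟨q, hy1 q (by rw [supDist_le_iff]; omega)⟩, rfl⟩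
  have hJ : ∀ u v : Finset.Icc a b, u.1 ∈ inn (y.1 - 1, y.2 - 1) 2 →
      Jbox β p a b u v = if v.1 ∈ nb4 u.1 then β else 0 := by
    intro u v hu
    have huy := hinn _ hu
    have hu' : ∀ q ∈ nb4 u.1, q ∈ Finset.Icc a b := by
      intro q hq
      rw [huy] at hq
      obtain ⟨w, hw⟩ := hcov q (clo_of_nb4 hyi hq)
      rw [← hw]
      exact w.2
    have h1 := perAdj_iff hu' v.2
    have h2 : Adj u.1 v.1 ↔ v.1 ∈ nb4 u.1 := adj_iff
    simp only [Jbox, h1, h2]
    cases p <;> simp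
  have h1 := noDep_restSum (n := n) Λ y
  have h2 := noDep_V_site (n := n) (ρ := fun _ => 1) hs h0 Subtype.val_injective hcov hJ
    (fun _ _ => rfl) hyi
  have hJr : Jr (Jbox β p a b) (fun _ => 1) = Jbox β p a b := by
    funext u v; simp [Jr]
  rw [hJr] at h2
  intro ξ σ
  have h3 := h1 ξ σ
  have h4 := h2 ξ σ
  have h5 := bondSum_split (n := n) hy σ
  have h6 := bondSum_split (n := n) hy (({y} : Finset Z2).piecewise ξ σ)
  simp only at h3 h4 ⊢
  unfold HL HB
  rw [h5, h6, h3]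
  linarith only [h4]

/-- dependence on finitely many spins -/
def Loc (A : Finset Z2) (G : (Z2 → Spin n) → ℝ) : Prop :=
  ∀ σ τ : Z2 → Spin n, (∀ x ∈ A, σ x = τ x) → G σ = G τ

/-- expectations of local observables -/
lemma tendsto_local [NeZero n] {β : ℝ} {μ : Measure (Z2 → Spin n)}
    (hμ : Model.IsInfiniteVolumeState n β μ) : ∃ (p : ℕ → Bool) (a b : ℕ → Z2),
      (∀ x : Z2, ∀ᶠ k in atTop, x ∈ Finset.Icc (a k) (b k)) ∧
      ∀ (A : Finset Z2) (G : (Z2 → Spin n) → ℝ), Continuous G → Loc A G → ∀ η : Z2 → Spin n,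
        Tendsto (fun k => Gb (Finset.Icc (a k) (b k)) (HB β (p k) (a k) (b k)) G η) atTop
          (𝓝 (∫ σ, G σ ∂μ)) := by
  obtain ⟨p, a, b, hex, hlim⟩ := hμ
  refine ⟨p, a, b, hex, fun A G hG hA η => ?_⟩
  have hf : Continuous fun s : A → Spin n => G (glue A s η) := hG.comp (continuous_glue A η)
  have hl := hlim A _ hf
  have e1 : ∀ σ : Z2 → Spin n, G (glue A (fun x : A => σ x.1) η) = G σ := by
    intro σ
    refine hA _ _ fun x hx => ?_
    rw [glue_mem hx]
  simp only [e1] at hl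
  refine hl.congr' ?_
  have hev : ∀ᶠ k in atTop, ∀ x ∈ A, x ∈ Finset.Icc (a k) (b k) :=
    (Finset.eventually_all A).2 fun x _ => hex x
  filter_upwards [hev] with k hk
  have hk' : A ⊆ Finset.Icc (a k) (b k) := hk
  rw [dif_pos hk', ← integral_boxState β (p k) (a k) (b k) hG η]
  congr 1
  funext s
  refine hA _ _ fun x hx => ?_
  rw [glue_mem hx, glue_mem (hk' hx)]

lemma prob_of_state [NeZero n] {β : ℝ} {μ : Measure (Z2 → Spin n)}
    (hμ : Model.IsInfiniteVolumeState n β μ) : IsProbabilityMeasure μ := by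
  obtain ⟨p, a, b, -, h⟩ := tendsto_local hμ
  obtain ⟨s0⟩ := spin_nonempty (n := n)
  have h1 := h ∅ (fun _ => 1) continuous_const (fun _ _ _ => rfl) (fun _ => s0)
  have h2 : (fun k => Gb (Finset.Icc (a k) (b k)) (HB β (p k) (a k) (b k))
      (fun _ : Z2 → Spin n => (1 : ℝ)) (fun _ => s0)) = fun _ => 1 := by
    funext k
    exact Gb_const (continuous_HB β (p k) (a k) (b k)) 1 _
  rw [h2] at h1
  have h3 := tendsto_nhds_unique h1 tendsto_const_nhds
  rw [integral_const, smul_eq_mul, mul_one] at h3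
  constructor
  rwa [measureReal_def, ENNReal.toReal_eq_one_iff] at h3

lemma loc_Gb [NeZero n] {A : Finset Z2} {F : (Z2 → Spin n) → ℝ} (hA : Loc A F) (β : ℝ)
    (Λ : Finset Z2) : Loc (A ∪ Λ.biUnion nb4) (Gb Λ (HL β Λ) F) := by
  intro σ τ h
  have hag : ∀ ξ : Z2 → Spin n, ∀ x, x ∈ A ∨ x ∈ Λ ∨ x ∈ Λ.biUnion nb4 →
      Λ.piecewise ξ σ x = Λ.piecewise ξ τ x := by
    intro ξ x hx
    by_cases hxΛ : x ∈ Λ
    · rw [Finset.piecewise_eq_of_mem _ _ _ hxΛ, Finset.piecewise_eq_of_mem _ _ _ hxΛ]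
    · rw [Finset.piecewise_eq_of_notMem _ _ _ hxΛ, Finset.piecewise_eq_of_notMem _ _ _ hxΛ]
      refine h x ?_
      rw [Finset.mem_union]
      tauto
  have e1 : ∀ ξ : Z2 → Spin n, F (Λ.piecewise ξ σ) = F (Λ.piecewise ξ τ) := fun ξ =>
    hA _ _ fun x hx => hag ξ x (Or.inl hx)
  have e2 : ∀ ξ : Z2 → Spin n, HL β Λ (Λ.piecewise ξ σ) = HL β Λ (Λ.piecewise ξ τ) := by
    intro ξ
    unfold HL bondSum
    congr 1
    refine Finset.sum_congr rfl fun x hx => Finset.sum_congr rfl fun y hy => ?_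
    rw [hag ξ x (Or.inr (Or.inl hx)),
      hag ξ y (Or.inr (Or.inr (Finset.mem_biUnion.2 ⟨x, hx, hy⟩)))]
  unfold Gb Av
  simp only [e1, e2]

/-- the DLR equations for local observables -/
lemma dlr_local [NeZero n] {β : ℝ} {μ : Measure (Z2 → Spin n)}
    (hμ : Model.IsInfiniteVolumeState n β μ) (Λ : Finset Z2) {A : Finset Z2}
    {F : (Z2 → Spin n) → ℝ} (hF : Continuous F) (hA : Loc A F) :
    ∫ σ, F σ ∂μ = ∫ σ, Gb Λ (HL β Λ) F σ ∂μ := by
  obtain ⟨p, a, b, hex, h⟩ := tendsto_local hμ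
  obtain ⟨s0⟩ := spin_nonempty (n := n)
  have hH := continuous_HL (n := n) β Λ
  have t1 := h A F hF hA (fun _ => s0)
  have t2 := h _ (Gb Λ (HL β Λ) F) (continuous_Gb hH hF) (loc_Gb hA β Λ) (fun _ => s0)
  refine tendsto_nhds_unique (t1.congr' ?_) t2
  have hev : ∀ᶠ k in atTop, ∀ x ∈ Λ.biUnion (fun y => clo (y.1 - 1, y.2 - 1) 2),
      x ∈ Finset.Icc (a k) (b k) :=
    (Finset.eventually_all _).2 fun x _ => hex x
  filter_upwards [hev] with k hk
  have hk' : ∀ y ∈ Λ, ∀ q, supDist q y ≤ 1 → q ∈ Finset.Icc (a k) (b k) := by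
    intro y hy q hq
    refine hk q (Finset.mem_biUnion.2 ⟨y, hy, ?_⟩)
    rw [supDist_le_iff] at hq
    rw [mem_clo]
    simp only
    omega
  have hsub : Λ ⊆ Finset.Icc (a k) (b k) := fun y hy => hk' y hy y (by rw [supDist_self]; simp)
  exact (Gb_Gb hsub (continuous_HB β (p k) (a k) (b k)) hH hF
    (noDep_HB_HL β (p k) hk') (fun _ => s0)).symm

/-- approximation by local observables -/
lemma approx [NeZero n] {F : (Z2 → Spin n) → ℝ} (hF : Continuous F) {ε : ℝ} (hε : 0 < ε) :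
    ∃ (A : Finset Z2) (G : (Z2 → Spin n) → ℝ), Continuous G ∧ Loc A G ∧
      ∀ σ, |F σ - G σ| ≤ ε := by
  obtain ⟨s0⟩ := spin_nonempty (n := n)
  set T : ℕ → (Z2 → Spin n) → (Z2 → Spin n) := fun k σ =>
    (clo (-(k : ℤ), -(k : ℤ)) (2 * k)).piecewise σ (fun _ => s0) with hT
  have hTu : TendstoUniformly T (fun σ => σ) atTop := by
    rw [tendstoUniformly_iff_tendsto, Pi.uniformity, tendsto_iInf]
    intro y
    rw [tendsto_comap_iff]
    intro V hV
    rw [Filter.mem_map]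
    have : {q : ℕ × (Z2 → Spin n) | (|y.1| ⊔ |y.2|).toNat ≤ q.1} ∈
        (atTop : Filter ℕ) ×ˢ (⊤ : Filter (Z2 → Spin n)) := by
      have h1 : {k : ℕ | (|y.1| ⊔ |y.2|).toNat ≤ k} ∈ (atTop : Filter ℕ) := mem_atTop _
      exact mem_of_superset (prod_mem_prod h1 univ_mem) fun q hq => hq.1
    refine mem_of_superset this fun q hq => ?_
    have hy : y ∈ clo (-(q.1 : ℤ), -(q.1 : ℤ)) (2 * q.1) := by
      have h2 : (|y.1| ⊔ |y.2|).toNat ≤ q.1 := hq
      have h3 : |y.1| ⊔ |y.2| ≤ q.1 := by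
        have := Int.self_le_toNat (|y.1| ⊔ |y.2|)
        omega
      rw [max_le_iff, abs_le, abs_le] at h3
      rw [mem_clo]
      simp only
      omega
    simp only [Set.mem_preimage, Function.comp_apply, hT]
    rw [Finset.piecewise_eq_of_mem _ _ _ hy]
    exact refl_mem_uniformity hV
  have hUC : UniformContinuous F := CompactSpace.uniformContinuous_of_continuous hF
  have h1 := hUC.comp_tendstoUniformly hTu
  rw [Metric.tendstoUniformly_iff] at h1
  obtain ⟨k, hk⟩ := (h1 ε hε).exists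
  refine ⟨clo (-(k : ℤ), -(k : ℤ)) (2 * k), fun σ => F (T k σ), ?_, ?_, fun σ => ?_⟩
  · exact hF.comp (continuous_pw_left _ _)
  · intro σ τ h
    beta_reduce
    congr 1
    rw [hT]
    beta_reduce
    funext x
    by_cases hx : x ∈ clo (-(k : ℤ), -(k : ℤ)) (2 * k)
    · rw [Finset.piecewise_eq_of_mem _ _ _ hx, Finset.piecewise_eq_of_mem _ _ _ hx, h x hx]
    · rw [Finset.piecewise_eq_of_notMem _ _ _ hx, Finset.piecewise_eq_of_notMem _ _ _ hx]
  · have := hk σ
    rw [Real.dist_eq] at this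
    exact this.le

/-- infinite-volume states satisfy the DLR equations -/
theorem gibbs_of_state [NeZero n] {β : ℝ} {μ : Measure (Z2 → Spin n)}
    (hμ : Model.IsInfiniteVolumeState n β μ) : IsGibbs n β μ := by
  have hp := prob_of_state hμ
  refine ⟨hp, fun Λ f hf => ?_⟩
  have hH := continuous_HL (n := n) β Λ
  have e : (fun σ : Z2 → Spin n => ∫ s, f (glue Λ s σ) ∂(bcState n β Λ σ)) =
      Gb Λ (HL β Λ) f := by
    funext σ
    exact integral_bcState β Λ hf σ
  rw [e]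
  have hint : ∀ {g : (Z2 → Spin n) → ℝ}, Continuous g → Integrable g μ := fun {g} hg => 
    hg.integrable_of_hasCompactSupport (HasCompactSupport.of_compactSpace _)
  refine eq_of_forall_dist_le fun ε hε => ?_
  obtain ⟨A, G, hG, hA, hFG⟩ := approx hf (half_pos hε)
  have h1 := dlr_local hμ Λ hG hA
  have hGc := continuous_Gb (D := Λ) hH hG
  have hfc := continuous_Gb (D := Λ) hH hf
  have h2 : |∫ σ, f σ ∂μ - ∫ σ, G σ ∂μ| ≤ ε / 2 := by
    rw [← integral_sub (hint hf) (hint hG)]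
    have h3 := norm_integral_le_of_norm_le_const (μ := μ) (C := ε / 2)
      (f := fun σ => f σ - G σ)
      (Filter.Eventually.of_forall fun σ => by rw [Real.norm_eq_abs]; exact hFG σ)
    rw [Real.norm_eq_abs] at h3
    simpa using h3
  have h4 : |∫ σ, Gb Λ (HL β Λ) f σ ∂μ - ∫ σ, Gb Λ (HL β Λ) G σ ∂μ| ≤ ε / 2 := by
    rw [← integral_sub (hint hfc) (hint hGc)]
    have h3 := norm_integral_le_of_norm_le_const (μ := μ) (C := ε / 2)
      (f := fun σ => Gb Λ (HL β Λ) f σ - Gb Λ (HL β Λ) G σ)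
      (Filter.Eventually.of_forall fun σ => by
        rw [Real.norm_eq_abs, ← Gb_sub hH hf hG]
        exact Gb_abs_le hH (hf.sub hG) hFG σ)
    rw [Real.norm_eq_abs] at h3
    simpa using h3
  rw [Real.dist_eq]
  have h5 : ∫ σ, f σ ∂μ - ∫ σ, Gb Λ (HL β Λ) f σ ∂μ =
      (∫ σ, f σ ∂μ - ∫ σ, G σ ∂μ) -
        (∫ σ, Gb Λ (HL β Λ) f σ ∂μ - ∫ σ, Gb Λ (HL β Λ) G σ ∂μ) := by
    rw [← h1]; ring
  rw [h5]
  refine (abs_sub _ _).trans ?_
  linarith

end Vale.Agent.P163.H354
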