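import Vale.Agent.P163.MathlibUsed

/-!
Elementary estimates for the final bounds.
-/

open Filter Topology

namespace Vale.Agent.P163.H354

lemma poly_exp {a ε : ℝ} (ha : 0 < a) (hε : 0 < ε) : ∃ K : ℝ, 0 < K ∧ ∀ L : ℕ,
    ((L : ℝ) + 1) * Real.exp (-(a * L / Real.log (L + 3) ^ ε)) ≤ K := by
  obtain ⟨C3, hC3⟩ : ∃ C3 : ℝ, C3 = (2 * ε) ^ ε := ⟨_, rfl⟩
  have hC0 : 0 < C3 := by rw [hC3]; positivity
  refine ⟨1 + 32 * C3 ^ 2 / a ^ 2, by positivity, fun L => ?_⟩
  rcases Nat.eq_zero_or_pos L with h0 | hL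
  · subst h0
    simp only [Nat.cast_zero, mul_zero, zero_div, neg_zero, Real.exp_zero, zero_add, mul_one]
    have : 0 ≤ 32 * C3 ^ 2 / a ^ 2 := by positivity
    linarith
  · have hL1 : (1 : ℝ) ≤ L := by exact_mod_cast hL
    obtain ⟨x, hx⟩ : ∃ x : ℝ, x = (L : ℝ) + 3 := ⟨_, rfl⟩
    have hx0 : 0 < x := by linarith
    rw [← hx]
    have hlog : 0 < Real.log x := Real.log_pos (by linarith)
    have h1 : Real.log x ^ ε ≤ C3 * √x := by
      have h2 := Real.log_le_rpow_div hx0.le (ε := 1 / (2 * ε)) (by positivity)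
      have h3 := Real.rpow_le_rpow hlog.le h2 hε.le
      refine h3.trans (le_of_eq ?_)
      rw [Real.div_rpow (by positivity) (by positivity), ← Real.rpow_mul hx0.le, hC3,
        Real.sqrt_eq_rpow]
      have e1 : 1 / (2 * ε) * ε = 1 / 2 := by field_simp
      rw [e1, Real.div_rpow zero_le_one (by positivity), Real.one_rpow]
      field_simp
    have hl0 : 0 < Real.log x ^ ε := Real.rpow_pos_of_pos hlog _
    have hs0 : 0 < √x := Real.sqrt_pos.2 hx0
    have hss : √x * √x = x := Real.mul_self_sqrt hx0.le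
    obtain ⟨y, hy⟩ : ∃ y : ℝ, y = a * √x / (4 * C3) := ⟨_, rfl⟩
    have hy0 : 0 < y := by rw [hy]; positivity
    have h4 : y ≤ a * L / Real.log x ^ ε := by
      rw [hy, div_le_div_iff₀ (by positivity) hl0]
      have h5 : x ≤ 4 * L := by linarith
      calc a * √x * Real.log x ^ ε ≤ a * √x * (C3 * √x) := by gcongr
        _ = a * C3 * x := by linear_combination (a * C3) * hss
        _ ≤ a * C3 * (4 * L) := by gcongr
        _ = a * L * (4 * C3) := by ring
    have h6 : Real.exp (-(a * L / Real.log x ^ ε)) ≤ Real.exp (-y) := by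
      rw [Real.exp_le_exp]; linarith
    have h7 : Real.exp (-y) ≤ 2 / y ^ 2 := by
      rw [Real.exp_neg, inv_eq_one_div, div_le_div_iff₀ (Real.exp_pos _) (by positivity)]
      have := Real.quadratic_le_exp_of_nonneg hy0.le
      nlinarith
    have h8 : x * (2 / y ^ 2) = 32 * C3 ^ 2 / a ^ 2 := by
      have e2 : y ^ 2 = a ^ 2 * x / (16 * C3 ^ 2) := by
        rw [hy, div_pow, mul_pow, mul_pow, Real.sq_sqrt hx0.le]
        norm_num
      rw [e2]
      field_simp
      norm_num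
    calc ((L : ℝ) + 1) * Real.exp (-(a * L / Real.log x ^ ε)) ≤ x * (2 / y ^ 2) := by
          refine mul_le_mul (by linarith) (h6.trans h7) (Real.exp_pos _).le hx0.le
      _ ≤ 1 + 32 * C3 ^ 2 / a ^ 2 := by rw [h8]; linarith

/-- the final form of the bounds -/
lemma num {n : ℕ} {β ε C1 c1 : ℝ} (hβ : 0 ≤ β) (hε : 0 < ε) (hC1 : 0 < C1) (hc1 : 0 < c1)
    {al : ℕ → ℝ} (hal0 : ∀ L, 0 ≤ al L)
    (hal : ∀ L : ℕ, al L ≤ C1 * Real.exp (-c1 * L / Real.log (L + 3) ^ ε)) :
    ∃ C c : ℝ, 0 < c ∧ 2 ≤ C ∧ ∀ (r R : ℕ) (D : ℝ), D ≤ 2 →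
      (3 ≤ R → D ≤ n * (Real.exp (2 * Real.pi * (16 * (r + ((R - 1) / 2 : ℕ) + 1) * β *
        al ((R - 1) / 2))) - 1)) →
      D ≤ C * (r + 1) * Real.exp (-c * R / Real.log (R + 3) ^ ε) := by
  have hpi := Real.pi_pos
  obtain ⟨K, hK0, hK⟩ := poly_exp (a := c1 / 2) (ε := ε) (by positivity) hε
  set c : ℝ := c1 / 12 with hc
  have hc0 : 0 < c := by rw [hc]; positivity
  set C2 : ℝ := (2 * n + 2) * (32 * Real.pi * β * C1 * K) with hC2
  have hC20 : 0 ≤ C2 := by rw [hC2]; positivity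
  refine ⟨2 * Real.exp (3 * c) + C2, c, hc0, ?_, fun r R D hD2 hD => ?_⟩
  · have : 1 ≤ Real.exp (3 * c) := Real.one_le_exp (by positivity)
    linarith
  have hR0 : (0 : ℝ) ≤ R := Nat.cast_nonneg R
  have hr0 : (0 : ℝ) ≤ r := Nat.cast_nonneg r
  have hlog1 : 1 ≤ Real.log ((R : ℝ) + 3) := by
    rw [Real.le_log_iff_exp_le (by positivity)]
    have := Real.exp_one_lt_d9
    linarith
  have hE1 : 1 ≤ Real.log ((R : ℝ) + 3) ^ ε := Real.one_le_rpow hlog1 hε.le
  have hE0 : 0 < Real.log ((R : ℝ) + 3) ^ ε := by linarith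
  rcases lt_or_ge R 3 with h3 | h3
  · have h4 : (R : ℝ) ≤ 3 := by exact_mod_cast h3.le
    have h5 : -(3 * c) ≤ -c * R / Real.log ((R : ℝ) + 3) ^ ε := by
      have : c * R / Real.log ((R : ℝ) + 3) ^ ε ≤ 3 * c := by
        rw [div_le_iff₀ hE0]
        nlinarith [mul_nonneg hc0.le hR0]
      have e : -c * R / Real.log ((R : ℝ) + 3) ^ ε = -(c * R / Real.log ((R : ℝ) + 3) ^ ε) := by
        ring
      rw [e]
      linarith
    have h6 := Real.exp_le_exp.2 h5
    have h7 : 2 ≤ 2 * Real.exp (3 * c) * Real.exp (-c * R / Real.log ((R : ℝ) + 3) ^ ε) := by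
      have h8 : Real.exp (3 * c) * Real.exp (-(3 * c)) = 1 := by
        rw [← Real.exp_add, add_neg_cancel, Real.exp_zero]
      have h9 := mul_le_mul_of_nonneg_left h6 (Real.exp_pos (3 * c)).le
      linarith
    have hx := Real.exp_pos (-c * R / Real.log ((R : ℝ) + 3) ^ ε)
    have hy := Real.exp_pos (3 * c)
    calc D ≤ 2 := hD2
      _ ≤ 2 * Real.exp (3 * c) * Real.exp (-c * R / Real.log ((R : ℝ) + 3) ^ ε) := h7
      _ ≤ (2 * Real.exp (3 * c) + C2) * (r + 1) *
          Real.exp (-c * R / Real.log ((R : ℝ) + 3) ^ ε) := by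
        refine mul_le_mul_of_nonneg_right ?_ hx.le
        have h10 : 0 ≤ (2 * Real.exp (3 * c) + C2) * r := by positivity
        linarith
  · have hD' := hD h3
    obtain ⟨L, hL⟩ : ∃ L : ℕ, L = (R - 1) / 2 := ⟨_, rfl⟩
    rw [← hL] at hD'
    have hLR : R ≤ 6 * L := by omega
    have hLR2 : L ≤ R := by omega
    have hLRr : (R : ℝ) ≤ 6 * L := by exact_mod_cast hLR
    have hLRr2 : (L : ℝ) ≤ R := by exact_mod_cast hLR2
    have hL0 : (0 : ℝ) ≤ L := Nat.cast_nonneg L
    have hlogL : 1 ≤ Real.log ((L : ℝ) + 3) := by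
      rw [Real.le_log_iff_exp_le (by positivity)]
      have := Real.exp_one_lt_d9
      linarith
    have hEL : 0 < Real.log ((L : ℝ) + 3) ^ ε := Real.rpow_pos_of_pos (by linarith) _
    have hELR : Real.log ((L : ℝ) + 3) ^ ε ≤ Real.log ((R : ℝ) + 3) ^ ε :=
      Real.rpow_le_rpow (by linarith) (Real.log_le_log (by linarith) (by linarith)) hε.le
    obtain ⟨q, hq⟩ : ∃ q : ℝ, q = c1 / 2 * L / Real.log ((L : ℝ) + 3) ^ ε := ⟨_, rfl⟩
    have hqc : c * R / Real.log ((R : ℝ) + 3) ^ ε ≤ q := by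
      rw [hq]
      refine div_le_div₀ (by positivity) ?_ hEL hELR
      rw [hc]
      nlinarith
    have hKL := hK L
    rw [← hq] at hKL
    have halL := hal L
    have e1 : -c1 * L / Real.log ((L : ℝ) + 3) ^ ε = -q + -q := by rw [hq]; ring
    rw [e1, Real.exp_add] at halL
    obtain ⟨δ, hδ⟩ : ∃ δ : ℝ, δ = 2 * Real.pi * (16 * (r + L + 1) * β * al L) := ⟨_, rfl⟩
    rw [← hδ] at hD'
    have hδ0 : 0 ≤ δ := by
      rw [hδ]
      have := hal0 L
      positivity
    have hδ1 : δ ≤ 32 * Real.pi * β * C1 * K * (r + 1) * Real.exp (-q) := by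
      have h5 : (r + L + 1 : ℝ) ≤ (r + 1) * (L + 1) := by nlinarith
      have h6 : 0 ≤ 32 * Real.pi * β := by positivity
      have hex := Real.exp_pos (-q)
      calc δ = 32 * Real.pi * β * ((r + L + 1) * al L) := by rw [hδ]; ring
        _ ≤ 32 * Real.pi * β * (((r + 1) * (L + 1)) * (C1 * (Real.exp (-q) * Real.exp (-q)))) := by
            refine mul_le_mul_of_nonneg_left ?_ h6
            exact mul_le_mul h5 halL (hal0 L) (by positivity)
        _ = 32 * Real.pi * β * C1 * (r + 1) * Real.exp (-q) * ((L + 1) * Real.exp (-q)) := by ring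
        _ ≤ 32 * Real.pi * β * C1 * (r + 1) * Real.exp (-q) * K := by
            refine mul_le_mul_of_nonneg_left hKL (by positivity)
        _ = _ := by ring
    have hDδ : D ≤ (2 * n + 2) * δ := by
      have hn0 : (0 : ℝ) ≤ n := Nat.cast_nonneg n
      rcases le_or_gt δ 1 with h5 | h5
      · have h6 : Real.exp δ - 1 ≤ 2 * δ := by
          have h := Real.abs_exp_sub_one_le (x := δ) (by rwa [abs_of_nonneg hδ0])
          rw [abs_of_nonneg hδ0] at h
          exact (le_abs_self _).trans h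
        have h7 := mul_le_mul_of_nonneg_left h6 hn0
        nlinarith
      · have : 0 ≤ 2 * (n : ℝ) * δ := by positivity
        linarith
    have hexq : Real.exp (-q) ≤ Real.exp (-c * R / Real.log ((R : ℝ) + 3) ^ ε) := by
      rw [Real.exp_le_exp]
      have e : -c * R / Real.log ((R : ℝ) + 3) ^ ε = -(c * R / Real.log ((R : ℝ) + 3) ^ ε) := by
        ring
      rw [e]
      linarith
    calc D ≤ (2 * n + 2) * δ := hDδ
      _ ≤ (2 * n + 2) * (32 * Real.pi * β * C1 * K * (r + 1) * Real.exp (-q)) :=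
          mul_le_mul_of_nonneg_left hδ1 (by positivity)
      _ = C2 * (r + 1) * Real.exp (-q) := by rw [hC2]; ring
      _ ≤ C2 * (r + 1) * Real.exp (-c * R / Real.log ((R : ℝ) + 3) ^ ε) :=
          mul_le_mul_of_nonneg_left hexq (by positivity)
      _ ≤ (2 * Real.exp (3 * c) + C2) * (r + 1) *
          Real.exp (-c * R / Real.log ((R : ℝ) + 3) ^ ε) := by
        refine mul_le_mul_of_nonneg_right ?_ (Real.exp_pos _).le
        refine mul_le_mul_of_nonneg_right ?_ (by positivity)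
        have := Real.exp_pos (3 * c)
        linarith

end Vale.Agent.P163.H354
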