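import Vale.Agent.P163.H354.Rot

/-!
Every rotation is a product of plane rotations (Cartan-Dieudonné).
-/

open MeasureTheory Filter Topology Submodule
open scoped RealInnerProductSpace

set_option linter.unusedSectionVars false

namespace Vale.Agent.P163.H354

open Vale.Agent.P163 Vale.Agent.P163.MW Vale.Agent.P163.H841

variable {n : ℕ}

/-- the reflection in the hyperplane orthogonal to `v` -/
noncomputable def rf (v : E n) : E n ≃ₗᵢ[ℝ] E n := reflection (ℝ ∙ v)ᗮ

/-- the determinant -/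
noncomputable def dt (U : E n ≃ₗᵢ[ℝ] E n) : ℝ := LinearMap.det (U.toLinearEquiv : E n →ₗ[ℝ] E n)

lemma dt_mul (U V : E n ≃ₗᵢ[ℝ] E n) : dt (U * V) = dt U * dt V := by
  unfold dt
  rw [← LinearMap.det_comp]
  rfl

lemma dt_one : dt (1 : E n ≃ₗᵢ[ℝ] E n) = 1 := by
  unfold dt
  exact LinearMap.det_id

lemma dt_rf {v : E n} (hv : v ≠ 0) : dt (rf v) = -1 := by
  have h := Submodule.det_reflection (𝕜 := ℝ) (E := E n) (ℝ ∙ v)ᗮ
  rw [Submodule.orthogonal_orthogonal, finrank_span_singleton hv, pow_one] at h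
  exact h

lemma rf_zero : rf (0 : E n) = 1 := by
  ext1 x
  unfold rf
  rw [reflection_orthogonal_apply, reflection_singleton_apply]
  simp

lemma rf_apply {v : E n} (hv : ‖v‖ = 1) (x : E n) : rf v x = x - (2 * ⟪v, x⟫) • v := by
  unfold rf
  rw [reflection_orthogonal_apply, reflection_singleton_apply, hv]
  simp only [Real.ringHom_apply, one_pow, div_one, neg_sub]
  rw [two_smul, two_mul, add_smul]

lemma rf_unit {v : E n} (hv : v ≠ 0) : rf v = rf (‖v‖⁻¹ • v) := by
  unfold rf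
  have h : (ℝ ∙ v) = (ℝ ∙ (‖v‖⁻¹ • v)) := by
    refine (Submodule.span_singleton_smul_eq ?_ v).symm
    exact (isUnit_iff_ne_zero.2 (inv_ne_zero (norm_ne_zero_iff.2 hv)))
  simp only [h]

lemma norm_unit {v : E n} (hv : v ≠ 0) : ‖(‖v‖⁻¹ • v : E n)‖ = 1 := by
  rw [norm_smul, norm_inv, norm_norm, inv_mul_cancel₀ (norm_ne_zero_iff.2 hv)]

/-- the product of two reflections is a plane rotation -/
lemma two_refl (hn : 3 ≤ n) {v w : E n} (hv : ‖v‖ = 1) (hw : ‖w‖ = 1) :
    ∃ (P : Pl n) (t : ℝ), |t| ≤ 2 * Real.pi ∧ rf v * rf w = P.rot t := by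
  have hvv : ⟪v, v⟫ = 1 := by rw [real_inner_self_eq_norm_sq, hv]; norm_num
  have hww : ⟪w, w⟫ = 1 := by rw [real_inner_self_eq_norm_sq, hw]; norm_num
  obtain ⟨c, hc⟩ : ∃ c, c = ⟪v, w⟫ := ⟨_, rfl⟩
  have hc1 : |c| ≤ 1 := by
    have := abs_real_inner_le_norm v w
    rwa [hv, hw, one_mul, ← hc] at this
  obtain ⟨c1, c2⟩ := abs_le.1 hc1
  obtain ⟨s, hs⟩ : ∃ s, s = ‖w - c • v‖ := ⟨_, rfl⟩
  have hs0 : 0 ≤ s := hs ▸ norm_nonneg _
  have hs2 : s ^ 2 = 1 - c ^ 2 := by
    rw [hs, ← real_inner_self_eq_norm_sq]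
    simp only [inner_sub_left, inner_sub_right, inner_smul_left, inner_smul_right,
      RCLike.conj_to_real, hvv, hww, ← hc]
    rw [real_inner_comm v w, ← hc]
    ring
  -- the second vector of the plane
  obtain ⟨b, hb, hvb, hwb⟩ : ∃ b : E n, ‖b‖ = 1 ∧ ⟪v, b⟫ = 0 ∧ w = c • v + s • b := by
    by_cases h0 : s = 0
    · obtain ⟨T, hT⟩ := Vale.Agent.P163.MW.exists_tri hn hv
      refine ⟨T.b, T.hb, ?_, ?_⟩
      · rw [← hT]; exact T.hab
      · rw [h0, zero_smul, add_zero]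
        have : ‖w - c • v‖ = 0 := by rw [← hs, h0]
        rw [norm_eq_zero, sub_eq_zero] at this
        exact this
    · refine ⟨s⁻¹ • (w - c • v), ?_, ?_, ?_⟩
      · rw [norm_smul, norm_inv, Real.norm_eq_abs, abs_of_nonneg hs0, ← hs, inv_mul_cancel₀ h0]
      · rw [inner_smul_right, inner_sub_right, inner_smul_right, hvv, ← hc]
        ring
      · rw [smul_smul, mul_inv_cancel₀ h0, one_smul]
        abel
  set θ := Real.arccos c with hθ
  have hcos : Real.cos θ = c := Real.cos_arccos c1 c2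
  have hsin : Real.sin θ = s := by
    rw [hθ, Real.sin_arccos, ← hs2, Real.sqrt_sq hs0]
  refine ⟨⟨v, b, hv, hb, hvb⟩, -(2 * θ), ?_, ?_⟩
  · rw [abs_neg, abs_mul, abs_of_pos two_pos, abs_of_nonneg (Real.arccos_nonneg c)]
    linarith [Real.arccos_le_pi c]
  · ext1 x
    show rf v (rf w x) = _
    rw [rf_apply hw, rf_apply hv, mw_rot_apply, Real.cos_neg, Real.sin_neg, Real.cos_two_mul,
      Real.sin_two_mul, hcos, hsin, hwb]
    simp only [inner_add_left, inner_sub_right, inner_add_right, inner_smul_left,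
      inner_smul_right, RCLike.conj_to_real, hvv, hvb]
    have hss : s ^ 2 = 1 - c ^ 2 := hs2
    generalize ⟪v, x⟫ = α
    generalize ⟪b, x⟫ = γ
    match_scalars
    · ring
    · ring
    · linear_combination (-2 * γ) * hss

lemma rots_of_list (hn : 3 ≤ n) (l : List (E n)) : ∃ k ≤ l.length,
    (Rots n k ((l.map fun v => rf v).prod) ∧ dt ((l.map fun v => rf v).prod) = 1) ∨
    ((∃ v, ‖v‖ = 1 ∧ ∃ U, Rots n k U ∧ (l.map fun v => rf v).prod = rf v * U) ∧
      dt ((l.map fun v => rf v).prod) = -1) := by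
  induction l with
  | nil => exact ⟨0, le_rfl, Or.inl ⟨Rots.one, dt_one⟩⟩
  | cons a l ih =>
    obtain ⟨k, hk, h⟩ := ih
    rw [List.map_cons, List.prod_cons, List.length_cons]
    by_cases ha : a = 0
    · rw [ha, rf_zero, one_mul]
      exact ⟨k, by omega, h⟩
    · have ha1 := norm_unit ha
      rcases h with ⟨h1, h2⟩ | ⟨⟨v, hv, U, hU, hp⟩, h2⟩
      · refine ⟨k, by omega, Or.inr ⟨⟨_, ha1, _, h1, by rw [rf_unit ha]⟩, ?_⟩⟩
        rw [dt_mul, dt_rf ha, h2, mul_one]
      · obtain ⟨P, t, ht, hPt⟩ := two_refl hn ha1 hv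
        refine ⟨k + 1, by omega, Or.inl ⟨?_, ?_⟩⟩
        · rw [hp, rf_unit ha, ← mul_assoc, hPt]
          exact Rots.step k P t ht U hU
        · rw [dt_mul, dt_rf ha, h2]
          norm_num

/-- every rotation is a product of at most `n` plane rotations -/
theorem rots_of_det (hn : 3 ≤ n) {U : E n ≃ₗᵢ[ℝ] E n} (hU : dt U = 1) :
    ∃ k ≤ n, Rots n k U := by
  obtain ⟨l, hl, h⟩ := U.reflections_generate_dim
  have hl' : l.length ≤ n := by
    simpa only [finrank_euclideanSpace, Fintype.card_fin] using hl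
  obtain ⟨k, hk, h1 | h1⟩ := rots_of_list hn l
  · refine ⟨k, hk.trans hl', ?_⟩
    rw [h]
    exact h1.1
  · exfalso
    have h2 := h1.2
    have h3 : (l.map fun v => rf v).prod = U := h.symm
    rw [h3, hU] at h2
    norm_num at h2

end Vale.Agent.P163.H354
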