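import Vale.Agent.P163.H354.Refl
import Vale.Agent.P163.H354.Num
import Vale.Agent.P163.H354.Defs

/-!
From the kernels of the development to the finite-volume states and the Gibbs states.
-/

open MeasureTheory Filter Topology
open scoped RealInnerProductSpace

set_option linter.unusedSectionVars false

namespace Vale.Agent.P163.H354

open Vale.Agent.P163 Vale.Agent.P163.MW Vale.Agent.P163.H841 Vale.Agent.P163.Universal
open Vale.Agent.P163.Restoration

variable {n : ℕ}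

lemma continuous_rot (x : Z2) (r : ℕ) (U : E n ≃ₗᵢ[ℝ] E n) :
    Continuous (rotateInside (n := n) x r U) := by
  refine continuous_pi fun y => ?_
  unfold rotateInside
  by_cases h : supDist y x ≤ r
  · simp only [h, if_true]
    exact Continuous.subtype_mk (U.continuous.comp
      (continuous_subtype_val.comp (continuous_apply y))) _
  · simp only [h, if_false]
    exact continuous_apply y

/-- the observable seen from the center -/
noncomputable def cen (x : Z2) (F : (Z2 → Spin n) → ℝ) (σ : Z2 → Spin n) : ℝ :=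
  F fun y => σ (y.1 - x.1, y.2 - x.2)

lemma cen_tr (x : Z2) (F : (Z2 → Spin n) → ℝ) (σ : Z2 → Spin n) :
    cen x F (fun z => σ (tr x z)) = F σ := by
  unfold cen tr
  congr 1
  funext y
  simp

lemma continuous_cen (x : Z2) {F : (Z2 → Spin n) → ℝ} (hF : Continuous F) :
    Continuous (cen x F) := by
  unfold cen
  exact hF.comp (continuous_pi fun y => continuous_apply _)

lemma mem_clo_iff {r : ℤ} {y : Z2} : y ∈ clo (-r, -r) (2 * r) ↔ supDist y 0 ≤ r := by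
  rw [mem_clo]
  unfold supDist
  simp only [Prod.fst_zero, Prod.snd_zero, sub_zero, max_le_iff, abs_le]
  omega

lemma mem_inn_iff {r : ℤ} {y : Z2} : y ∈ inn (-r, -r) (2 * r) ↔ supDist y 0 < r := by
  rw [mem_inn]
  unfold supDist
  simp only [Prod.fst_zero, Prod.snd_zero, sub_zero, max_lt_iff, abs_lt]
  omega

lemma supDist_sub (x y : Z2) : supDist (y.1 - x.1, y.2 - x.2) 0 = supDist y x := by
  unfold supDist
  simp

lemma cen_rot (x : Z2) (r : ℕ) (U : E n ≃ₗᵢ[ℝ] E n) (F : (Z2 → Spin n) → ℝ) (τ : Z2 → Spin n) :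
    cen x (fun σ => F (rotateInside x r U σ)) τ = cen x F (act (inr r U) τ) := by
  unfold cen
  beta_reduce
  congr 1
  funext y
  unfold rotateInside
  by_cases h : supDist y x ≤ r
  · simp only [h, if_true]
    apply Subtype.ext
    rw [coe_act]
    unfold inr
    rw [if_pos (mem_clo_iff.2 (by rw [supDist_sub]; exact h))]
  · simp only [h, if_false]
    apply Subtype.ext
    rw [coe_act]
    unfold inr
    rw [if_neg (fun h' => h (by
      have := mem_clo_iff.1 h'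
      rwa [supDist_sub] at this))]
    rfl

lemma noDep_cen {x : Z2} {r R : ℕ} {F : (Z2 → Spin n) → ℝ} (hF : IgnoresAnnulus x r R F) {R' : ℤ}
    (hR' : R' ≤ r + R) : NoDep (ann r R') (cen x F) := by
  intro ξ σ
  unfold cen
  refine hF _ _ fun y hy => ?_
  refine Finset.piecewise_eq_of_notMem _ _ _ fun hm => ?_
  unfold ann at hm
  rw [Finset.mem_sdiff, mem_inn_iff, mem_clo_iff, supDist_sub] at hm
  omega

section

variable [NeZero n]

/-- bound for the box kernels -/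
theorem box_rot (hn : 3 ≤ n) {β : ℝ} (hβ : 0 ≤ β) {x : Z2} {r R : ℕ} (hR : 3 ≤ R)
    {F : (Z2 → Spin n) → ℝ} (hFc : Continuous F) (hF : IgnoresAnnulus x r R F)
    (hF1 : ∀ σ, |F σ| ≤ 1) {U : E n ≃ₗᵢ[ℝ] E n} (hU : dt U = 1) (σ : Z2 → Spin n) :
    |Gc β (x.1 - (r + 2 * ((R - 1) / 2 : ℕ) + 1 : ℤ), x.2 - (r + 2 * ((R - 1) / 2 : ℕ) + 1 : ℤ))
        (2 * (r + 2 * ((R - 1) / 2 : ℕ) + 1 : ℤ)) (fun τ => F (rotateInside x r U τ)) σ -
      Gc β (x.1 - (r + 2 * ((R - 1) / 2 : ℕ) + 1 : ℤ), x.2 - (r + 2 * ((R - 1) / 2 : ℕ) + 1 : ℤ))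
        (2 * (r + 2 * ((R - 1) / 2 : ℕ) + 1 : ℤ)) F σ| ≤
      n * (Real.exp (2 * Real.pi * (16 * (r + ((R - 1) / 2 : ℕ) + 1) * β *
        al n β ((R - 1) / 2))) - 1) := by
  obtain ⟨L, hL⟩ : ∃ L : ℕ, L = (R - 1) / 2 := ⟨_, rfl⟩
  rw [← hL]
  have hL1 : (0 : ℤ) < L := by omega
  set Q : ℤ := r + 2 * L + 1 with hQ
  have key : ∀ {H : (Z2 → Spin n) → ℝ}, Continuous H →
      Gc β (x.1 - Q, x.2 - Q) (2 * Q) H σ = Gc β (-Q, -Q) (2 * Q) (cen x H) (fun z => σ (tr x z)) := by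
    intro H hH
    have h := Gc_shift (n := n) β x (-Q, -Q) (2 * Q) (continuous_cen x hH) σ
    have e1 : tr x (-Q, -Q) = (x.1 - Q, x.2 - Q) := by
      unfold tr; exact Prod.ext (by simp only; ring) (by simp only; ring)
    have e2 : (fun σ : Z2 → Spin n => cen x H fun z => σ (tr x z)) = H := by
      funext τ; exact cen_tr x H τ
    rw [e1, e2] at h
    exact h
  rw [key (H := fun τ => F (rotateInside x r U τ)) (hFc.comp (continuous_rot x r U)), key hFc]
  have e3 : cen x (fun τ => F (rotateInside x r U τ)) =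
      fun τ => cen x F (act (inr r U) τ) := by
    funext τ; exact cen_rot x r U F τ
  rw [e3]
  obtain ⟨k, hk, hrots⟩ := rots_of_det hn hU
  have h1 := rots_bound hβ (r := r) (L := L) (Int.natCast_nonneg r) hL1 (al_nonneg n β L)
    (MA_al β L) (B := 1) hrots (F := cen x F) (continuous_cen x hFc)
    (noDep_cen hF (by omega)) (fun τ => hF1 _) (fun z => σ (tr x z))
  rw [← hQ] at h1
  refine h1.trans ?_
  rw [one_mul, Int.cast_natCast, Int.cast_natCast]
  refine mul_le_mul_of_nonneg_right (by exact_mod_cast hk) ?_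
  have hal := al_nonneg n β L
  have : 0 ≤ 2 * Real.pi * (16 * (r + L + 1) * β * al n β L) := by
    have := Real.pi_pos
    positivity
  linarith [Real.one_le_exp this]

/-- trivial bound -/
lemma triv {D : Finset Z2} {H : (Z2 → Spin n) → ℝ} (hH : Continuous H) {F G : (Z2 → Spin n) → ℝ}
    (hF : Continuous F) (hG : Continuous G) (hF1 : ∀ σ, |F σ| ≤ 1) (hG1 : ∀ σ, |G σ| ≤ 1)
    (σ : Z2 → Spin n) : |Gb D H G σ - Gb D H F σ| ≤ 2 := by
  have h1 := Gb_abs_le (D := D) hH hF hF1 σ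
  have h2 := Gb_abs_le (D := D) hH hG hG1 σ
  refine (abs_sub _ _).trans ?_
  linarith

/-- bound for all regions -/
theorem region_rot (hn : 3 ≤ n) {β : ℝ} (hβ : 0 ≤ β) {x : Z2} {r R : ℕ}
    {F : (Z2 → Spin n) → ℝ} (hFc : Continuous F) (hF : IgnoresAnnulus x r R F)
    (hF1 : ∀ σ, |F σ| ≤ 1) {U : E n ≃ₗᵢ[ℝ] E n} (hU : dt U = 1) {Λ : Finset Z2}
    (hΛ : ∀ y, supDist y x < r + R → y ∈ Λ) (η : Z2 → Spin n) :
    |Gb Λ (HL β Λ) (fun τ => F (rotateInside x r U τ)) η - Gb Λ (HL β Λ) F η| ≤ 2 ∧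
    (3 ≤ R → |Gb Λ (HL β Λ) (fun τ => F (rotateInside x r U τ)) η - Gb Λ (HL β Λ) F η| ≤
      n * (Real.exp (2 * Real.pi * (16 * (r + ((R - 1) / 2 : ℕ) + 1) * β *
        al n β ((R - 1) / 2))) - 1)) := by
  have hH := continuous_HL (n := n) β Λ
  have hGc : Continuous fun τ => F (rotateInside x r U τ) := hFc.comp (continuous_rot x r U)
  refine ⟨triv hH hFc hGc hF1 (fun τ => hF1 _) η, fun hR => ?_⟩
  have hb := box_rot hn hβ hR hFc hF hF1 hU
  set Q : ℤ := r + 2 * ((R - 1) / 2 : ℕ) + 1 with hQ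
  have hW := continuous_W (n := n) β (x.1 - Q, x.2 - Q) (2 * Q)
  have hsub : inn (x.1 - Q, x.2 - Q) (2 * Q) ⊆ Λ := by
    intro y hy
    refine hΛ y ?_
    rw [mem_inn] at hy
    simp only at hy
    unfold supDist
    rw [max_lt_iff, abs_lt, abs_lt]
    omega
  rw [← Gb_Gb hsub hH hW hGc (noDep_HL_W β hsub) η, ← Gb_Gb hsub hH hW hFc (noDep_HL_W β hsub) η,
    ← Gb_sub hH (continuous_Gb hW hGc) (continuous_Gb hW hFc)]
  exact Gb_abs_le hH (f := fun τ => Gb (inn (x.1 - Q, x.2 - Q) (2 * Q))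
    (W β (x.1 - Q, x.2 - Q) (2 * Q)) (fun τ => F (rotateInside x r U τ)) τ -
    Gb (inn (x.1 - Q, x.2 - Q) (2 * Q)) (W β (x.1 - Q, x.2 - Q) (2 * Q)) F τ)
    ((continuous_Gb hW hGc).sub (continuous_Gb hW hFc)) (fun τ => hb τ) η

end

/-- the main bound for finite regions -/
theorem restore (hn : 3 ≤ n) {β : ℝ} (hβ : 0 ≤ β) {ε : ℝ} (hε : 0 < ε) :
    ∃ C c : ℝ, 0 < c ∧ 2 ≤ C ∧ ∀ (x : Z2) (r R : ℕ) (F : (Z2 → Spin n) → ℝ), Continuous F →
      IgnoresAnnulus x r R F → (∀ σ, |F σ| ≤ 1) → ∀ U : E n ≃ₗᵢ[ℝ] E n, dt U = 1 →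
      ∀ (Λ : Finset Z2) (η : Z2 → Spin n), (∀ y, supDist y x < r + R → y ∈ Λ) →
      |Gb Λ (HL β Λ) (fun τ => F (rotateInside x r U τ)) η - Gb Λ (HL β Λ) F η| ≤
        C * (r + 1) * Real.exp (-c * R / Real.log (R + 3) ^ ε) := by
  have : NeZero n := ⟨by omega⟩
  obtain ⟨C1, c1, hC1, hc1, h⟩ := (rec_al hn hβ).nearly hε
  obtain ⟨C, c, hc, hC, hnum⟩ := num (n := n) hβ hε hC1 hc1 (al_nonneg n β) h
  refine ⟨C, c, hc, hC, fun x r R F hFc hF hF1 U hU Λ η hΛ => ?_⟩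
  obtain ⟨h1, h2⟩ := region_rot hn hβ hFc hF hF1 hU hΛ η
  exact hnum r R _ h1 h2

end Vale.Agent.P163.H354
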