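import Vale.Agent.P163.H841.Spec

/-!
Decoupling of the rotations of the inner spins from everything outside an annulus.
-/

open MeasureTheory Filter Topology
open scoped RealInnerProductSpace

set_option linter.unusedSectionVars false

namespace Vale.Agent.P163.H354

open Vale.Agent.P163 Vale.Agent.P163.MW Vale.Agent.P163.H841

variable {n : ℕ}

/-- rotation of the spins in the closed box of radius `r` about the origin -/
noncomputable def inr (r : ℤ) (U : E n ≃ₗᵢ[ℝ] E n) : Gau Z2 n :=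
  fun x => if x ∈ clo (-r, -r) (2 * r) then U else LinearIsometryEquiv.refl ℝ _

/-- the annulus between the closed box of radius `r` and the sphere of radius `R` -/
noncomputable def ann (r R : ℤ) : Finset Z2 := inn (-R, -R) (2 * R) \ clo (-r, -r) (2 * r)

lemma NoDep.inr {r : ℤ} {A : Finset Z2} {F : (Z2 → Spin n) → ℝ} (h : NoDep A F)
    (U : E n ≃ₗᵢ[ℝ] E n) : NoDep A fun τ => F (act (inr r U) τ) := by
  intro ξ σ
  beta_reduce
  rw [act_pw, h]

lemma act_inr_mul (r : ℤ) (U V : E n ≃ₗᵢ[ℝ] E n) (τ : Z2 → Spin n) :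
    act (inr r U) (act (inr r V) τ) = act (inr r (U * V)) τ := by
  funext x
  apply Subtype.ext
  rw [coe_act, coe_act, coe_act]
  unfold inr
  split_ifs
  · rfl
  · rfl

lemma act_inr_one (r : ℤ) (τ : Z2 → Spin n) : act (inr r (1 : E n ≃ₗᵢ[ℝ] E n)) τ = τ := by
  funext x
  apply Subtype.ext
  rw [coe_act]
  unfold inr
  split_ifs
  · rfl
  · rfl

section

variable [NeZero n]

/-- the rotation of the inner spins in a plane -/
theorem rot_bound {β : ℝ} (hβ : 0 ≤ β) {r L : ℤ} (hr : 0 ≤ r) (hL : 0 < L) {a : ℝ} (ha : 0 ≤ a)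
    (hMA : MA n β L a) (P : Pl n) (t : ℝ) {F : (Z2 → Spin n) → ℝ} (hF : Continuous F)
    (hnd : NoDep (ann r (r + 2 * L + 1)) F) {B : ℝ} (hB : ∀ σ, |F σ| ≤ B) (σ : Z2 → Spin n) :
    |Gc β (-(r + 2 * L + 1), -(r + 2 * L + 1)) (2 * (r + 2 * L + 1))
        (fun τ => F (act (inr r (P.rot t)) τ)) σ -
      Gc β (-(r + 2 * L + 1), -(r + 2 * L + 1)) (2 * (r + 2 * L + 1)) F σ| ≤
      B * (Real.exp (|t| * (16 * (r + L + 1) * β * a)) - 1) := by
  set R : ℤ := r + 2 * L + 1 with hR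
  set A := ann r R with hA
  have hW := continuous_W (n := n) β (-R, -R) (2 * R)
  set h : Gau Z2 n := P.rg fun x => t * ind (r + L) x with hh
  set G : (Z2 → Spin n) → ℝ := fun τ => F (act (inr r (P.rot t)) τ) with hG
  have hGc : Continuous G := hF.comp (continuous_act _)
  have hGB : ∀ τ, |G τ| ≤ B := fun τ => hB _
  have hGn : NoDep A G := NoDep.inr hnd _
  have hout : ∀ x ∉ inn (-R, -R) (2 * R), ind (r + L) x = 0 := by
    intro x hx
    unfold ind
    rw [if_neg]
    intro hx2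
    apply hx
    rw [mem_clo] at hx2
    rw [mem_inn]
    simp only at hx2 ⊢
    omega
  have hsupp : SuppIn (inn (-R, -R) (2 * R)) h :=
    Vale.Agent.P163.MW.suppIn_rg (φ := ind (r + L)) P hout t
  have hact : ∀ τ : Z2 → Spin n, F (act h τ) = G τ := by
    intro τ
    rw [hG]
    beta_reduce
    rw [← hnd (act h τ) (act (inr r (P.rot t)) τ)]
    congr 1
    funext x
    by_cases hx : x ∈ A
    · rw [Finset.piecewise_eq_of_mem _ _ _ hx]
    · rw [Finset.piecewise_eq_of_notMem _ _ _ hx]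
      apply Subtype.ext
      rw [coe_act, coe_act, hh]
      unfold Pl.rg inr
      beta_reduce
      by_cases hc : x ∈ clo (-r, -r) (2 * r)
      · have : ind (r + L) x = 1 := by
          unfold ind
          rw [if_pos]
          rw [mem_clo] at hc ⊢
          simp only at hc ⊢
          omega
        rw [this, mul_one, if_pos hc]
      · have hxR : x ∉ inn (-R, -R) (2 * R) := fun h' => hx (by
          rw [hA, ann, Finset.mem_sdiff]; exact ⟨h', hc⟩)
        rw [hout x hxR, mul_zero, mw_rot_zero, if_neg hc]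
  have h1 := Gb_act_supp' hsupp hW hF σ
  set δ : ℝ := 16 * (r + L + 1) * β * a with hδdef
  have hrL : (0 : ℝ) ≤ r + L + 1 := by
    have : (0 : ℤ) ≤ r + L + 1 := by omega
    exact_mod_cast this
  have hδ0 : 0 ≤ δ := by positivity
  have hδ : ∀ τ : Z2 → Spin n, |Gb A (W β (-R, -R) (2 * R))
      (Jc β (-R, -R) (2 * R) (ind (r + L)) P.X) τ| ≤ δ :=
    fun τ => Jc_annulus (n := n) hβ hr hL ha hMA P τ
  have hlR : 0 ≤ 2 * R := by omega
  have hQ := fun τ => Qt_sub_one_abs_le (A := A) hβ (p := (-R, -R)) hlR P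
    (fun u v _ => ind_lip (r + L) u v) hδ0 hδ t τ
  have hQc : Continuous (Qt A β (-R, -R) (2 * R) P (ind (r + L)) t) :=
    continuous_Gb hW (cexp (continuous_DW _ _ _ _ _))
  have hE : Continuous fun τ : Z2 → Spin n =>
      Real.exp (DW β (-R, -R) (2 * R) P (fun x => t * ind (r + L) x) τ) :=
    cexp (continuous_DW _ _ _ _ _)
  have h2 : Gb (inn (-R, -R) (2 * R)) (W β (-R, -R) (2 * R)) (fun τ => G τ *
      Real.exp (DW β (-R, -R) (2 * R) P (fun x => t * ind (r + L) x) τ)) σ =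
      Gb (inn (-R, -R) (2 * R)) (W β (-R, -R) (2 * R)) (fun τ => G τ *
        Qt A β (-R, -R) (2 * R) P (ind (r + L)) t τ) σ := by
    have hFE : Continuous fun τ : Z2 → Spin n => G τ *
        Real.exp (DW β (-R, -R) (2 * R) P (fun x => t * ind (r + L) x) τ) := hGc.mul hE
    have hAs : A ⊆ inn (-R, -R) (2 * R) := by rw [hA, ann]; exact Finset.sdiff_subset
    rw [← Gb_Gb (D' := A) hAs hW hW hFE (fun ξ τ => by simp) σ]
    congr 1
    funext τ
    exact Gb_mul_of_NoDep hGn τ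
  have e1 : (fun τ : Z2 → Spin n => F (act h τ) *
      Real.exp (W β (-R, -R) (2 * R) (act h τ) - W β (-R, -R) (2 * R) τ)) =
      fun τ => G τ *
        Real.exp (DW β (-R, -R) (2 * R) P (fun x => t * ind (r + L) x) τ) := by
    funext τ
    rw [hact τ]
    rfl
  rw [e1, h2] at h1
  have h3 : Gb (inn (-R, -R) (2 * R)) (W β (-R, -R) (2 * R)) G σ -
      Gb (inn (-R, -R) (2 * R)) (W β (-R, -R) (2 * R)) F σ =
      Gb (inn (-R, -R) (2 * R)) (W β (-R, -R) (2 * R)) (fun τ => G τ *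
      (1 - Qt A β (-R, -R) (2 * R) P (ind (r + L)) t τ)) σ := by
    have e2 : (fun τ => G τ * (1 - Qt A β (-R, -R) (2 * R) P (ind (r + L)) t τ)) =
        fun τ => G τ - G τ * Qt A β (-R, -R) (2 * R) P (ind (r + L)) t τ := by
      funext τ; ring
    have hFQ : Continuous fun τ => G τ * Qt A β (-R, -R) (2 * R) P (ind (r + L)) t τ :=
      hGc.mul hQc
    rw [e2, Gb_sub hW hGc hFQ, h1]
  change |Gb (inn (-R, -R) (2 * R)) (W β (-R, -R) (2 * R)) G σ -
      Gb (inn (-R, -R) (2 * R)) (W β (-R, -R) (2 * R)) F σ| ≤ _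
  rw [h3]
  refine Gb_abs_le (D := inn (-R, -R) (2 * R)) hW
    (f := fun τ => G τ * (1 - Qt A β (-R, -R) (2 * R) P (ind (r + L)) t τ))
    (hGc.mul (continuous_const.sub hQc)) (fun τ => ?_) σ
  rw [abs_mul]
  refine mul_le_mul (hGB τ) ?_ (abs_nonneg _) ((abs_nonneg _).trans (hGB τ))
  rw [abs_sub_comm]
  exact hQ τ

/-- products of plane rotations with angles of absolute value at most `2π` -/
inductive Rots (n : ℕ) : ℕ → (E n ≃ₗᵢ[ℝ] E n) → Prop
  | one : Rots n 0 1
  | step (k : ℕ) (P : Pl n) (t : ℝ) (ht : |t| ≤ 2 * Real.pi) (U : E n ≃ₗᵢ[ℝ] E n) :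
      Rots n k U → Rots n (k + 1) (P.rot t * U)

theorem rots_bound {β : ℝ} (hβ : 0 ≤ β) {r L : ℤ} (hr : 0 ≤ r) (hL : 0 < L) {a : ℝ} (ha : 0 ≤ a)
    (hMA : MA n β L a) {B : ℝ} {k : ℕ} {U : E n ≃ₗᵢ[ℝ] E n} (hU : Rots n k U) :
    ∀ {F : (Z2 → Spin n) → ℝ} (_ : Continuous F)
    (_ : NoDep (ann r (r + 2 * L + 1)) F) (_ : ∀ σ, |F σ| ≤ B) (σ : Z2 → Spin n),
    |Gc β (-(r + 2 * L + 1), -(r + 2 * L + 1)) (2 * (r + 2 * L + 1))
        (fun τ => F (act (inr r U) τ)) σ -
      Gc β (-(r + 2 * L + 1), -(r + 2 * L + 1)) (2 * (r + 2 * L + 1)) F σ| ≤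
      k * (B * (Real.exp (2 * Real.pi * (16 * (r + L + 1) * β * a)) - 1)) := by
  induction hU with
  | one =>
    intro F hF hnd hB σ
    simp only [act_inr_one, sub_self, abs_zero, Nat.cast_zero, zero_mul, le_refl]
  | step k P t ht U _ ih =>
    intro F hF hnd hB σ
    have hB0 : 0 ≤ B := (abs_nonneg _).trans (hB σ)
    have h1 := rot_bound hβ hr hL ha hMA P t hF hnd hB σ
    have h2 := ih (F := fun τ => F (act (inr r (P.rot t)) τ)) (hF.comp (continuous_act _))
      (NoDep.inr hnd _) (fun τ => hB _) σ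
    simp only [act_inr_mul] at h2
    have hrL : (0 : ℝ) ≤ r + L + 1 := by
      have : (0 : ℤ) ≤ r + L + 1 := by omega
      exact_mod_cast this
    have h3 : B * (Real.exp (|t| * (16 * (r + L + 1) * β * a)) - 1) ≤
        B * (Real.exp (2 * Real.pi * (16 * (r + L + 1) * β * a)) - 1) := by
      have : Real.exp (|t| * (16 * (r + L + 1) * β * a)) ≤
          Real.exp (2 * Real.pi * (16 * (r + L + 1) * β * a)) := by
        rw [Real.exp_le_exp]
        exact mul_le_mul_of_nonneg_right ht (by positivity)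
      exact mul_le_mul_of_nonneg_left (by linarith) hB0
    have h4 := h1.trans h3
    push_cast
    refine (abs_sub_le _ (Gc β (-(r + 2 * L + 1), -(r + 2 * L + 1)) (2 * (r + 2 * L + 1))
      (fun τ => F (act (inr r (P.rot t)) τ)) σ) _).trans ?_
    linarith

end

end Vale.Agent.P163.H354
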